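import Vale.Agent.P214.TCH.Mass

/-!
# P214, block TCH: comparison of the masses of cylinders over two base balls

`mass_sub`: if `ball z' r ⊆ ball z R` then the mass ratio of the cylinder over `ball z' r` differs
from that of the cylinder over `ball z R` by at most `C (R/r)^(m+1)` times the excess over
`ball z R`.  Only stationarity is used (no integrality).
-/

open Set Filter Topology MeasureTheory Metric
open scoped RealInnerProductSpace

set_option linter.all false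

namespace Vale.Agent.P214.TCH

open Vale.Agent.P214.FV Vale.Agent.P214.Skel Vale.Agent.P214.ODE Vale.Agent.P214.QP

variable {E : Type*} [NormedAddCommGroup E] [InnerProductSpace ℝ E] [FiniteDimensional ℝ E]

/-- mixed defect bound -/
lemma abs_inner_sub_star_le {S T : Submodule ℝ E} (h : Module.finrank ℝ S = Module.finrank ℝ T)
    {x w : E} (hx : x ∈ T) (hw : w ∈ T) :
    |⟪x, w - S.starProjection w⟫| ≤ FV.tilt T S.starProjection * (‖x‖ * ‖w‖) := by
  have key : ∀ v ∈ T, ‖co S v‖ ^ 2 ≤ FV.tilt T S.starProjection * ‖v‖ ^ 2 := by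
    intro v hv
    have h1 := inner_defect_le S T h v
    rw [inner_defect, Submodule.starProjection_eq_self_iff.2 hv] at h1
    exact h1
  have e : ⟪x, w - S.starProjection w⟫ = ⟪co S x, co S w⟫ := by
    have h1 : w - S.starProjection w = co S w := rfl
    rw [h1]
    have h2 : co S w = co S (co S w) := by
      rw [co_eq]
      exact (Submodule.starProjection_eq_self_iff.2 (Submodule.starProjection_apply_mem _ _)).symm
    rw [h2, ← inner_co, ← h2]
  have ht : 0 ≤ FV.tilt T S.starProjection := FV.tilt_nonneg S T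
  rw [e]
  refine (abs_real_inner_le_norm _ _).trans ?_
  refine le_of_sq_le_sq ?_ (by positivity)
  calc (‖co S x‖ * ‖co S w‖) ^ 2 = ‖co S x‖ ^ 2 * ‖co S w‖ ^ 2 := by ring
    _ ≤ (FV.tilt T S.starProjection * ‖x‖ ^ 2) * (FV.tilt T S.starProjection * ‖w‖ ^ 2) := by
        gcongr
        · exact key x hx
        · exact key w hw
    _ = _ := by ring

variable [MeasurableSpace E] [BorelSpace E]
variable {m : ℕ} {T : Submodule ℝ E} {h : ℝ} {ν : Measure E} {P : E → E →L[ℝ] E} {z : E} {R : ℝ}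

/-- pointwise derivative of the kernel along a path of balls -/
lemma hasDerivAt_kpath (z v : E) (ρ d : ℝ) (y : E) {l : ℝ} (hl : ρ + l * d ≠ 0) :
    HasDerivAt (fun l : ℝ => prof (‖bas T (z + l • v) y‖ ^ 2 / (ρ + l * d) ^ 2))
      (dprof (‖bas T (z + l • v) y‖ ^ 2 / (ρ + l * d) ^ 2) *
        (2 * ⟪bas T (z + l • v) y, v⟫ / (ρ + l * d) ^ 2 +
          2 * ‖bas T (z + l • v) y‖ ^ 2 * d / (ρ + l * d) ^ 3)) l := by
  have h1 : HasDerivAt (fun l : ℝ => bas T (z + l • v) y) (-v) l := by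
    have h2 : HasDerivAt (fun l : ℝ => z + l • v) v l := by
      have := (hasDerivAt_id l).smul_const v
      simpa using this.const_add z
    have := h2.const_sub (T.starProjection y)
    exact this
  have h2 : HasDerivAt (fun l : ℝ => ‖bas T (z + l • v) y‖ ^ 2)
      (2 * ⟪bas T (z + l • v) y, -v⟫) l := h1.norm_sq
  have h3 : HasDerivAt (fun l : ℝ => (ρ + l * d) ^ 2) (2 * (ρ + l * d) * d) l := by
    have := (((hasDerivAt_id l).mul_const d).const_add ρ).pow 2
    refine this.congr_deriv ?_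
    simp
  have h4 := h2.div h3 (pow_ne_zero 2 hl)
  have h5 := (hasDerivAt_prof (‖bas T (z + l • v) y‖ ^ 2 / (ρ + l * d) ^ 2)).comp l h4
  refine h5.congr_deriv ?_
  rw [inner_neg_right]
  set D := dprof (‖bas T (z + l • v) y‖ ^ 2 / (ρ + l * d) ^ 2)
  set I := ⟪bas T (z + l • v) y, v⟫
  set N := ‖bas T (z + l • v) y‖ ^ 2
  set r := ρ + l * d
  field_simp
  ring

/-- the smooth mass along a path of balls -/
noncomputable def Fpath (T : Submodule ℝ E) (ν : Measure E) (z v : E) (ρ d : ℝ) (l : ℝ) : ℝ :=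
  ∫ y, prof (‖bas T (z + l • v) y‖ ^ 2 / (ρ + l * d) ^ 2) ∂ν

lemma continuous_bas' (T : Submodule ℝ E) (z : E) : Continuous (bas T z) :=
  (contDiff_bas (n := 0) T z).continuous

lemma abs_kd_le {T : Submodule ℝ E} {z v : E} {r d : ℝ} (hr : 0 < r) (y : E) :
    |dprof (‖bas T z y‖ ^ 2 / r ^ 2) * (2 * ⟪bas T z y, v⟫ / r ^ 2 +
      2 * ‖bas T z y‖ ^ 2 * d / r ^ 3)| ≤ 4 * (‖v‖ + |d|) / r := by
  by_cases hy : 1 ≤ ‖bas T z y‖ ^ 2 / r ^ 2
  · rw [dprof_of_one_le hy, zero_mul, abs_zero]; positivity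
  · rw [not_le, div_lt_one (by positivity)] at hy
    have h1 : ‖bas T z y‖ < r := lt_of_pow_lt_pow_left₀ 2 hr.le hy
    have h2 := dprof_le_two (s := ‖bas T z y‖ ^ 2 / r ^ 2) (by positivity)
    have h3 := dprof_nonneg (‖bas T z y‖ ^ 2 / r ^ 2)
    rw [abs_mul, abs_of_nonneg h3]
    have h4 : |2 * ⟪bas T z y, v⟫ / r ^ 2| ≤ 2 * ‖v‖ / r := by
      rw [abs_div, abs_mul, abs_of_pos (by norm_num : (0:ℝ) < 2),
        abs_of_pos (by positivity : 0 < r ^ 2), div_le_div_iff₀ (by positivity) hr]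
      have h5 := abs_real_inner_le_norm (bas T z y) v
      calc 2 * |⟪bas T z y, v⟫| * r ≤ 2 * (‖bas T z y‖ * ‖v‖) * r := by gcongr
        _ ≤ 2 * (r * ‖v‖) * r := by gcongr
        _ = 2 * ‖v‖ * r ^ 2 := by ring
    have h5 : |2 * ‖bas T z y‖ ^ 2 * d / r ^ 3| ≤ 2 * |d| / r := by
      rw [abs_div, abs_mul, abs_of_nonneg (by positivity : 0 ≤ 2 * ‖bas T z y‖ ^ 2),
        abs_of_pos (by positivity : 0 < r ^ 3), div_le_div_iff₀ (by positivity) hr]
      calc 2 * ‖bas T z y‖ ^ 2 * |d| * r ≤ 2 * r ^ 2 * |d| * r := by gcongr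
        _ = 2 * |d| * r ^ 3 := by ring
    calc dprof (‖bas T z y‖ ^ 2 / r ^ 2) * |2 * ⟪bas T z y, v⟫ / r ^ 2 +
          2 * ‖bas T z y‖ ^ 2 * d / r ^ 3|
        ≤ 2 * (2 * ‖v‖ / r + 2 * |d| / r) := by
          gcongr
          exact (abs_add_le _ _).trans (add_le_add h4 h5)
      _ = 4 * (‖v‖ + |d|) / r := by ring

lemma hasDerivAt_Fpath [IsFiniteMeasure ν] (z v : E) (ρ d : ℝ) {l : ℝ} (hl : 0 < ρ + l * d) :
    HasDerivAt (Fpath T ν z v ρ d)
      (∫ y, dprof (‖bas T (z + l • v) y‖ ^ 2 / (ρ + l * d) ^ 2) *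
        (2 * ⟪bas T (z + l • v) y, v⟫ / (ρ + l * d) ^ 2 +
          2 * ‖bas T (z + l • v) y‖ ^ 2 * d / (ρ + l * d) ^ 3) ∂ν) l := by
  have hnhds : {x : ℝ | (ρ + l * d) / 2 < ρ + x * d} ∈ 𝓝 l := by
    refine (isOpen_lt continuous_const (by fun_prop)).mem_nhds ?_
    simp only [mem_setOf_eq]; linarith
  have hcp : ∀ x : ℝ, Continuous fun y => prof (‖bas T (z + x • v) y‖ ^ 2 / (ρ + x * d) ^ 2) :=
    fun x => continuous_prof.comp (((continuous_bas' T _).norm.pow 2).div_const _)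
  have hcd : Continuous fun y => dprof (‖bas T (z + l • v) y‖ ^ 2 / (ρ + l * d) ^ 2) *
        (2 * ⟪bas T (z + l • v) y, v⟫ / (ρ + l * d) ^ 2 +
          2 * ‖bas T (z + l • v) y‖ ^ 2 * d / (ρ + l * d) ^ 3) := by
    have hb := continuous_bas' T (z + l • v)
    have h1 : Continuous fun y => dprof (‖bas T (z + l • v) y‖ ^ 2 / (ρ + l * d) ^ 2) :=
      continuous_dprof.comp ((hb.norm.pow 2).div_const _)
    have h2 : Continuous fun y => ⟪bas T (z + l • v) y, v⟫ := hb.inner continuous_const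
    exact h1.mul (((h2.const_mul 2).div_const _).add ((((hb.norm.pow 2).const_mul 2).mul_const d).div_const _))
  refine (hasDerivAt_integral_of_dominated_loc_of_deriv_le
    (F := fun l y => prof (‖bas T (z + l • v) y‖ ^ 2 / (ρ + l * d) ^ 2))
    (F' := fun l y => dprof (‖bas T (z + l • v) y‖ ^ 2 / (ρ + l * d) ^ 2) *
        (2 * ⟪bas T (z + l • v) y, v⟫ / (ρ + l * d) ^ 2 +
          2 * ‖bas T (z + l • v) y‖ ^ 2 * d / (ρ + l * d) ^ 3))
    (bound := fun _ => 4 * (‖v‖ + |d|) / ((ρ + l * d) / 2)) hnhds ?_ ?_ ?_ ?_ ?_ ?_).2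
  · exact Eventually.of_forall fun x => (hcp x).aestronglyMeasurable
  · refine Integrable.mono' (integrable_const (1:ℝ)) (hcp l).aestronglyMeasurable
      (Eventually.of_forall fun y => ?_)
    rw [Real.norm_of_nonneg (prof_nonneg _)]
    exact prof_le_one (by positivity)
  · exact hcd.aestronglyMeasurable
  · refine Eventually.of_forall fun y x hx => ?_
    have hx' : (ρ + l * d) / 2 < ρ + x * d := hx
    have hx0 : 0 < ρ + x * d := lt_trans (by positivity) hx'
    rw [Real.norm_eq_abs]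
    refine (abs_kd_le hx0 y).trans ?_
    gcongr
  · exact integrable_const _
  · refine Eventually.of_forall fun y x hx => ?_
    have hx' : (ρ + l * d) / 2 < ρ + x * d := hx
    have hx0 : 0 < ρ + x * d := lt_trans (by positivity) hx'
    exact hasDerivAt_kpath z v ρ d y hx0.ne'

/-- stationarity with the field `prof(|x|²/r²) (a x + v)` -/
lemma stat_path (hC : CylStat m T (ball z R) h ν P) {c v : E} (hc : c ∈ T) (hv : v ∈ T) {r a : ℝ}
    (hr : 0 < r) (hin : ‖c - z‖ + r < R) :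
    Integrable (fun y => prof (‖bas T c y‖ ^ 2 / r ^ 2) * (a * tr (T.starProjection.comp (P y))) -
      2 * dprof (‖bas T c y‖ ^ 2 / r ^ 2) / r ^ 2 *
        ⟪bas T c y, P y (a • bas T c y + v)⟫) ν ∧
    ∫ y, (prof (‖bas T c y‖ ^ 2 / r ^ 2) * (a * tr (T.starProjection.comp (P y))) -
      2 * dprof (‖bas T c y‖ ^ 2 / r ^ 2) / r ^ 2 *
        ⟪bas T c y, P y (a • bas T c y + v)⟫) ∂ν = 0 := by
  set k : ℝ → ℝ := fun s => prof (s / r ^ 2) with hk
  have hdk : ∀ s, HasDerivAt k (-(dprof (s / r ^ 2) / r ^ 2)) s := by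
    intro s
    have h1 : HasDerivAt (fun s : ℝ => s / r ^ 2) (1 / r ^ 2) s := (hasDerivAt_id s).div_const _
    refine ((hasDerivAt_prof (s / r ^ 2)).comp s h1).congr_deriv ?_
    ring
  have hk1 : ContDiff ℝ 1 k := by
    rw [contDiff_one_iff_deriv]
    refine ⟨fun s => (hdk s).differentiableAt, ?_⟩
    have : deriv k = fun s => -(dprof (s / r ^ 2) / r ^ 2) := funext fun s => (hdk s).deriv
    rw [this]
    exact ((continuous_dprof.comp (continuous_id.div_const _)).div_const _).neg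
  have hbc : BaseCpt T (ball z R) (FV.rad T c k) := by
    refine baseCpt_rad (R := r) ?_ hr.le ?_
    · intro x _ hx
      rw [mem_ball, dist_eq_norm]
      calc ‖x - z‖ = ‖(x - c) + (c - z)‖ := by congr 1; abel
        _ ≤ ‖x - c‖ + ‖c - z‖ := norm_add_le _ _
        _ < R := by linarith
    · intro s hs
      refine prof_of_one_le ?_
      rw [one_le_div (by positivity)]; exact hs.le
  have hW : ContDiff ℝ 1 (fun y => a • bas T c y + v) :=
    ((contDiff_bas T c).const_smul a).add contDiff_const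
  have h1 := hC.prod (contDiff_rad T c hk1) hW hbc
  have h3 := (hC.integrable_prod₁ (contDiff_rad T c hk1).continuous hW hbc).add
    (hC.integrable_prod₂ (contDiff_rad T c hk1) hW.continuous hbc)
  have heq : ∀ y, FV.rad T c k y * tr ((fderiv ℝ (fun y => a • bas T c y + v) y).comp (P y)) +
      fderiv ℝ (FV.rad T c k) y (P y (a • bas T c y + v)) =
      prof (‖bas T c y‖ ^ 2 / r ^ 2) * (a * tr (T.starProjection.comp (P y))) -
      2 * dprof (‖bas T c y‖ ^ 2 / r ^ 2) / r ^ 2 * ⟪bas T c y, P y (a • bas T c y + v)⟫ := by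
    intro y
    have hfW : fderiv ℝ (fun y => a • bas T c y + v) y = a • T.starProjection :=
      (((hasFDerivAt_bas T c y).const_smul a).add_const v).fderiv
    rw [hfW, fderiv_rad hc (hdk _).differentiableAt, (hdk _).deriv]
    have h2 : (a • T.starProjection).comp (P y) = a • (T.starProjection.comp (P y)) := by
      ext; simp
    rw [h2, tr_smul]
    simp only [FV.rad, hk]
    ring
  refine ⟨h3.congr (Eventually.of_forall fun y => heq y), ?_⟩
  rw [← h1]
  exact integral_congr_ae (Eventually.of_forall fun y => (heq y).symm)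

/-- the derivative of the normalised smooth mass along a path of balls -/
lemma abs_deriv_le (hC : CylStat m T (ball z R) h ν P) {c v : E} (hc : c ∈ T) (hv : v ∈ T)
    {r d : ℝ} (hr : 0 < r) (hin : ‖c - z‖ + r < R) :
    |∫ y, dprof (‖bas T c y‖ ^ 2 / r ^ 2) * (2 * ⟪bas T c y, v⟫ / r ^ 2 +
          2 * ‖bas T c y‖ ^ 2 * d / r ^ 3) ∂ν
        - m * (d / r) * ∫ y, prof (‖bas T c y‖ ^ 2 / r ^ 2) ∂ν|
      ≤ 5 * (‖v‖ + |d|) / r * Dex T P ν c r := by
  haveI := hC.fin
  obtain ⟨hi2, h2⟩ := stat_path hC hc hv (a := d / r) hr hin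
  have hb := continuous_bas' T c
  have hcp : Continuous fun y => prof (‖bas T c y‖ ^ 2 / r ^ 2) :=
    continuous_prof.comp ((hb.norm.pow 2).div_const _)
  have hcd : Continuous fun y => dprof (‖bas T c y‖ ^ 2 / r ^ 2) * (2 * ⟪bas T c y, v⟫ / r ^ 2 +
          2 * ‖bas T c y‖ ^ 2 * d / r ^ 3) := by
    have h1 : Continuous fun y => dprof (‖bas T c y‖ ^ 2 / r ^ 2) :=
      continuous_dprof.comp ((hb.norm.pow 2).div_const _)
    have h2 : Continuous fun y => ⟪bas T c y, v⟫ := hb.inner continuous_const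
    exact h1.mul (((h2.const_mul 2).div_const _).add ((((hb.norm.pow 2).const_mul 2).mul_const d).div_const _))
  have hi0 : Integrable (fun y => prof (‖bas T c y‖ ^ 2 / r ^ 2)) ν := by
    refine Integrable.mono' (integrable_const (1:ℝ)) hcp.aestronglyMeasurable
      (Eventually.of_forall fun y => ?_)
    rw [Real.norm_of_nonneg (prof_nonneg _)]
    exact prof_le_one (by positivity)
  have hi1 : Integrable (fun y => dprof (‖bas T c y‖ ^ 2 / r ^ 2) * (2 * ⟪bas T c y, v⟫ / r ^ 2 +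
          2 * ‖bas T c y‖ ^ 2 * d / r ^ 3)) ν := by
    refine Integrable.mono' (integrable_const (4 * (‖v‖ + |d|) / r)) hcd.aestronglyMeasurable
      (Eventually.of_forall fun y => ?_)
    exact abs_kd_le hr y
  have e : ∫ y, dprof (‖bas T c y‖ ^ 2 / r ^ 2) * (2 * ⟪bas T c y, v⟫ / r ^ 2 +
          2 * ‖bas T c y‖ ^ 2 * d / r ^ 3) ∂ν
        - m * (d / r) * ∫ y, prof (‖bas T c y‖ ^ 2 / r ^ 2) ∂ν
      = ∫ y, ((dprof (‖bas T c y‖ ^ 2 / r ^ 2) * (2 * ⟪bas T c y, v⟫ / r ^ 2 +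
          2 * ‖bas T c y‖ ^ 2 * d / r ^ 3) - m * (d / r) * prof (‖bas T c y‖ ^ 2 / r ^ 2)) +
          (prof (‖bas T c y‖ ^ 2 / r ^ 2) * (d / r * tr (T.starProjection.comp (P y))) -
      2 * dprof (‖bas T c y‖ ^ 2 / r ^ 2) / r ^ 2 *
        ⟪bas T c y, P y ((d / r) • bas T c y + v)⟫)) ∂ν := by
    have hi3 : Integrable (fun y => dprof (‖bas T c y‖ ^ 2 / r ^ 2) *
        (2 * ⟪bas T c y, v⟫ / r ^ 2 + 2 * ‖bas T c y‖ ^ 2 * d / r ^ 3) -
        m * (d / r) * prof (‖bas T c y‖ ^ 2 / r ^ 2)) ν := hi1.sub (hi0.const_mul _)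
    rw [integral_add hi3 hi2, integral_sub hi1 (hi0.const_mul _),
      integral_const_mul, h2, add_zero]
  rw [e]
  refine abs_integral_le_Dex hC ?_ ?_ ((hi1.sub (hi0.const_mul _)).add hi2)
  · filter_upwards [hC.proj, CylStat.tilt_nonneg hC, (CylStat.plane hC).tilt_eq (T := T)]
      with y hy ht0 htr hyb
    obtain ⟨S, hS, hP⟩ := hy
    rw [bset_eq hc hr, mem_cylSet hr] at hyb
    have hbr : ‖bas T c y‖ < r := lt_of_pow_lt_pow_left₀ 2 hr.le hyb
    set W := (d / r) • bas T c y + v with hW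
    have hWT : W ∈ T := T.add_mem (T.smul_mem _ (bas_mem hc y)) hv
    have hWn : ‖W‖ ≤ ‖v‖ + |d| := by
      calc ‖W‖ ≤ ‖(d / r) • bas T c y‖ + ‖v‖ := norm_add_le _ _
        _ = |d| / r * ‖bas T c y‖ + ‖v‖ := by
            rw [norm_smul, Real.norm_eq_abs, abs_div, abs_of_pos hr]
        _ ≤ |d| / r * r + ‖v‖ := by gcongr
        _ = ‖v‖ + |d| := by field_simp; ring
    have hmix := abs_inner_sub_star_le (hS.trans hC.dimT.symm) (bas_mem hc y) hWT
    rw [← hP, ← otilt_eq T P y] at hmix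
    have e2 : (dprof (‖bas T c y‖ ^ 2 / r ^ 2) * (2 * ⟪bas T c y, v⟫ / r ^ 2 +
          2 * ‖bas T c y‖ ^ 2 * d / r ^ 3) - m * (d / r) * prof (‖bas T c y‖ ^ 2 / r ^ 2)) +
          (prof (‖bas T c y‖ ^ 2 / r ^ 2) * (d / r * tr (T.starProjection.comp (P y))) -
      2 * dprof (‖bas T c y‖ ^ 2 / r ^ 2) / r ^ 2 * ⟪bas T c y, P y W⟫)
        = 2 * dprof (‖bas T c y‖ ^ 2 / r ^ 2) / r ^ 2 * ⟪bas T c y, W - P y W⟫
          - d / r * prof (‖bas T c y‖ ^ 2 / r ^ 2) * ODE.tilt T P y := by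
      have h5 : ⟪bas T c y, W⟫ = d / r * ‖bas T c y‖ ^ 2 + ⟪bas T c y, v⟫ := by
        rw [hW, inner_add_right, inner_smul_right, real_inner_self_eq_norm_sq]
      rw [htr, inner_sub_right, h5]
      field_simp
      ring
    rw [e2]
    have hd0 := dprof_nonneg (‖bas T c y‖ ^ 2 / r ^ 2)
    have hd2 := dprof_le_two (s := ‖bas T c y‖ ^ 2 / r ^ 2) (by positivity)
    have hp0 := prof_nonneg (‖bas T c y‖ ^ 2 / r ^ 2)
    have hp1 := prof_le_one (s := ‖bas T c y‖ ^ 2 / r ^ 2) (by positivity)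
    calc |2 * dprof (‖bas T c y‖ ^ 2 / r ^ 2) / r ^ 2 * ⟪bas T c y, W - P y W⟫
          - d / r * prof (‖bas T c y‖ ^ 2 / r ^ 2) * ODE.tilt T P y|
        ≤ |2 * dprof (‖bas T c y‖ ^ 2 / r ^ 2) / r ^ 2 * ⟪bas T c y, W - P y W⟫|
          + |d / r * prof (‖bas T c y‖ ^ 2 / r ^ 2) * ODE.tilt T P y| := abs_sub _ _
      _ ≤ 4 * (‖v‖ + |d|) / r * ODE.tilt T P y + (‖v‖ + |d|) / r * ODE.tilt T P y := by
          refine add_le_add ?_ ?_
          · rw [abs_mul, abs_of_nonneg (by positivity :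
              0 ≤ 2 * dprof (‖bas T c y‖ ^ 2 / r ^ 2) / r ^ 2)]
            calc 2 * dprof (‖bas T c y‖ ^ 2 / r ^ 2) / r ^ 2 * |⟪bas T c y, W - P y W⟫|
                ≤ 2 * 2 / r ^ 2 * (ODE.tilt T P y * (r * (‖v‖ + |d|))) := by
                  gcongr
                  refine hmix.trans ?_
                  gcongr
              _ = 4 * (‖v‖ + |d|) / r * ODE.tilt T P y := by field_simp; ring
          · rw [abs_mul, abs_of_nonneg ht0, abs_mul, abs_of_nonneg hp0, abs_div, abs_of_pos hr]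
            gcongr
            calc |d| / r * prof (‖bas T c y‖ ^ 2 / r ^ 2) ≤ |d| / r * 1 := by gcongr
              _ ≤ (‖v‖ + |d|) / r := by
                rw [mul_one]; gcongr; linarith [norm_nonneg v]
      _ = 5 * (‖v‖ + |d|) / r * ODE.tilt T P y := by ring
  · intro y hy
    rw [bset_eq hc hr, mem_cylSet hr] at hy
    have h1 : 1 ≤ ‖bas T c y‖ ^ 2 / r ^ 2 := by
      rw [one_le_div (by positivity)]; exact not_lt.1 hy
    rw [dprof_of_one_le h1, prof_of_one_le h1]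
    ring

/-- **Smooth masses of two balls.** -/
lemma smooth_two (hC : CylStat m T (ball z R) h ν P) (hz : z ∈ T) {c0 c1 : E} (h0 : c0 ∈ T)
    (h1 : c1 ∈ T) {r0 r1 rm : ℝ} (hrm : 0 < rm) (hr0 : rm ≤ r0) (hr1 : rm ≤ r1)
    (hin0 : ‖c0 - z‖ + r0 < R) (hin1 : ‖c1 - z‖ + r1 < R) :
    |(∫ y, prof (‖bas T c1 y‖ ^ 2 / r1 ^ 2) ∂ν) / r1 ^ m
      - (∫ y, prof (‖bas T c0 y‖ ^ 2 / r0 ^ 2) ∂ν) / r0 ^ m|
      ≤ 5 * (‖c1 - c0‖ + |r1 - r0|) / rm ^ (m + 1) * Dex T P ν z R := by
  haveI := hC.fin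
  set v := c1 - c0 with hv
  set d := r1 - r0 with hd
  have hvT : v ∈ T := T.sub_mem h1 h0
  have hrl : ∀ l ∈ Icc (0:ℝ) 1, rm ≤ r0 + l * d := by
    intro l hl
    have : r0 + l * d = (1 - l) * r0 + l * r1 := by rw [hd]; ring
    rw [this]
    nlinarith [hl.1, hl.2, mul_le_mul_of_nonneg_left hr0 (sub_nonneg.2 hl.2),
      mul_le_mul_of_nonneg_left hr1 hl.1]
  have hinl : ∀ l ∈ Icc (0:ℝ) 1, ‖c0 + l • v - z‖ + (r0 + l * d) < R := by
    intro l hl
    have e1 : c0 + l • v - z = (1 - l) • (c0 - z) + l • (c1 - z) := by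
      rw [hv]; module
    have e2 : r0 + l * d = (1 - l) * r0 + l * r1 := by rw [hd]; ring
    have h3 : ‖c0 + l • v - z‖ ≤ (1 - l) * ‖c0 - z‖ + l * ‖c1 - z‖ := by
      rw [e1]
      refine (norm_add_le _ _).trans ?_
      rw [norm_smul, norm_smul, Real.norm_of_nonneg hl.1, Real.norm_of_nonneg (sub_nonneg.2 hl.2)]
    rw [e2]
    rcases eq_or_lt_of_le hl.1 with h4 | h4
    · rw [← h4] at h3 ⊢
      simp only [sub_zero, one_mul, zero_mul, add_zero, zero_smul] at h3 ⊢
      linarith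
    · nlinarith [mul_lt_mul_of_pos_left hin1 h4,
        mul_le_mul_of_nonneg_left hin0.le (sub_nonneg.2 hl.2)]
  set G : ℝ → ℝ := fun l => Fpath T ν c0 v r0 d l / (r0 + l * d) ^ m with hG
  set F1 : ℝ → ℝ := fun l => ∫ y, dprof (‖bas T (c0 + l • v) y‖ ^ 2 / (r0 + l * d) ^ 2) *
        (2 * ⟪bas T (c0 + l • v) y, v⟫ / (r0 + l * d) ^ 2 +
          2 * ‖bas T (c0 + l • v) y‖ ^ 2 * d / (r0 + l * d) ^ 3) ∂ν with hF1
  set G' : ℝ → ℝ := fun l => (F1 l - m * (d / (r0 + l * d)) * Fpath T ν c0 v r0 d l)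
    / (r0 + l * d) ^ m with hG'
  have hder : ∀ l ∈ Icc (0:ℝ) 1, HasDerivWithinAt G (G' l) (Icc 0 1) l := by
    intro l hl
    have hrp : 0 < r0 + l * d := hrm.trans_le (hrl l hl)
    have h3 : HasDerivAt (Fpath T ν c0 v r0 d) (F1 l) l := hasDerivAt_Fpath c0 v r0 d hrp
    have h4 : HasDerivAt (fun l : ℝ => (r0 + l * d) ^ m) (m * (r0 + l * d) ^ (m - 1) * d) l := by
      have := (((hasDerivAt_id l).mul_const d).const_add r0).pow m
      refine this.congr_deriv ?_
      simp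
    refine ((h3.div h4 (pow_ne_zero m hrp.ne')).congr_deriv ?_).hasDerivWithinAt
    simp only [hG']
    clear_value F1
    rcases Nat.eq_zero_or_pos m with hm | hm
    · subst hm; simp
    · have h5 : (r0 + l * d) ^ m = (r0 + l * d) ^ (m - 1) * (r0 + l * d) := by
        rw [← pow_succ, Nat.sub_add_cancel hm]
      rw [h5]
      have h6 : (r0 + l * d) ^ (m - 1) ≠ 0 := pow_ne_zero _ hrp.ne'
      have h7 := hrp.ne'
      field_simp
  have hbd : ∀ l ∈ Ico (0:ℝ) 1, ‖G' l‖ ≤ 5 * (‖v‖ + |d|) / rm ^ (m + 1) * Dex T P ν z R := by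
    intro l hl
    have hl' : l ∈ Icc (0:ℝ) 1 := ⟨hl.1, hl.2.le⟩
    have hrp : 0 < r0 + l * d := hrm.trans_le (hrl l hl')
    have hcT : c0 + l • v ∈ T := T.add_mem h0 (T.smul_mem _ hvT)
    have h3 := abs_deriv_le hC hcT hvT (d := d) hrp (hinl l hl')
    have h4 : Dex T P ν (c0 + l • v) (r0 + l * d) ≤ Dex T P ν z R := by
      refine Dex_mono_set hC (bset_subset hrp.le ?_)
      rw [Submodule.starProjection_eq_self_iff.2 hcT, Submodule.starProjection_eq_self_iff.2 hz]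
      exact (hinl l hl').le
    have hD0 : 0 ≤ Dex T P ν z R := Dex_nonneg hC R
    have hD1 : 0 ≤ Dex T P ν (c0 + l • v) (r0 + l * d) := Dex_nonneg hC _
    simp only [hG', hF1]
    rw [norm_div, Real.norm_eq_abs, Real.norm_of_nonneg (by positivity :
      0 ≤ (r0 + l * d) ^ m)]
    calc |_| / (r0 + l * d) ^ m ≤ (5 * (‖v‖ + |d|) / (r0 + l * d) *
          Dex T P ν (c0 + l • v) (r0 + l * d)) / (r0 + l * d) ^ m := by gcongr; exact h3
      _ = 5 * (‖v‖ + |d|) / (r0 + l * d) ^ (m + 1) * Dex T P ν (c0 + l • v) (r0 + l * d) := by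
          rw [pow_succ]; field_simp
      _ ≤ 5 * (‖v‖ + |d|) / rm ^ (m + 1) * Dex T P ν z R := by
          gcongr
          exact hrl l hl'
  have h5 := norm_image_sub_le_of_norm_deriv_le_segment_01' hder hbd
  rw [Real.norm_eq_abs] at h5
  have e0 : G 0 = (∫ y, prof (‖bas T c0 y‖ ^ 2 / r0 ^ 2) ∂ν) / r0 ^ m := by
    simp only [hG, Fpath, zero_smul, add_zero, zero_mul]
  have e1 : G 1 = (∫ y, prof (‖bas T c1 y‖ ^ 2 / r1 ^ 2) ∂ν) / r1 ^ m := by
    simp only [hG, Fpath, one_smul, one_mul, hv, hd, add_sub_cancel]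
  rwa [e0, e1] at h5

/-- **Masses of two sharp cylinders**, open version. -/
lemma mass_two (hC : CylStat m T (ball z R) h ν P) (hz : z ∈ T) (hm : 1 ≤ m) {c0 c1 : E}
    (h0 : c0 ∈ T) (h1 : c1 ∈ T) {r0 r1 rm : ℝ} (hrm : 0 < rm) (hr0 : rm ≤ r0) (hr1 : rm ≤ r1)
    (hin0 : ‖c0 - z‖ + r0 < R) (hin1 : ‖c1 - z‖ + r1 < R) :
    |ν.real (cylSet T c1 r1) / r1 ^ m - ν.real (cylSet T c0 r0) / r0 ^ m|
      ≤ (24 * rm + 5 * (‖c1 - c0‖ + |r1 - r0|)) / (cm m * rm ^ (m + 1)) * exc T ν P z R := by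
  haveI := hC.fin
  have hr00 : 0 < r0 := hrm.trans_le hr0
  have hr10 : 0 < r1 := hrm.trans_le hr1
  have hR : 0 < R := lt_of_le_of_lt (by positivity) hin0
  have hcm := cm_pos m
  rw [exc_eq hz hR]
  have hD0 : 0 ≤ Dex T P ν z R := Dex_nonneg hC R
  have hone : ∀ {c : E} {r : ℝ}, c ∈ T → rm ≤ r → ‖c - z‖ + r < R →
      |cm m * (ν.real (cylSet T c r) / r ^ m) - (∫ y, prof (‖bas T c y‖ ^ 2 / r ^ 2) ∂ν) / r ^ m|
        ≤ 12 / rm ^ m * Dex T P ν z R := by
    intro c r hc hrr hin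
    have hr : 0 < r := hrm.trans_le hrr
    have hC' : CylStat m T (ball c r) h ν P := by
      refine CylStat.mono hC isOpen_ball ?_
      intro x hx
      rw [mem_ball, dist_eq_norm] at hx ⊢
      calc ‖x - z‖ = ‖(x - c) + (c - z)‖ := by congr 1; abel
        _ ≤ ‖x - c‖ + ‖c - z‖ := norm_add_le _ _
        _ < R := by linarith
    have h3 := sharp_smooth hC' hc hm hr le_rfl
    have h4 : Dex T P ν c r ≤ Dex T P ν z R := by
      refine Dex_mono_set hC (bset_subset hr.le ?_)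
      rw [Submodule.starProjection_eq_self_iff.2 hc, Submodule.starProjection_eq_self_iff.2 hz]
      exact hin.le
    simp only [bsq_eq hc] at h3
    have e : cm m * (ν.real (cylSet T c r) / r ^ m)
        - (∫ y, prof (‖bas T c y‖ ^ 2 / r ^ 2) ∂ν) / r ^ m
        = (cm m * ν.real (cylSet T c r) - ∫ y, prof (‖bas T c y‖ ^ 2 / r ^ 2) ∂ν) / r ^ m := by
      ring
    rw [e, abs_div, abs_of_pos (by positivity : 0 < r ^ m)]
    calc _ ≤ (12 * Dex T P ν z R) / rm ^ m := by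
          gcongr
          exact h3.trans (by gcongr)
      _ = _ := by ring
  have hA := hone h1 hr1 hin1
  have hB := hone h0 hr0 hin0
  have hM := smooth_two hC hz h0 h1 hrm hr0 hr1 hin0 hin1
  set a1 := ν.real (cylSet T c1 r1) / r1 ^ m
  set a0 := ν.real (cylSet T c0 r0) / r0 ^ m
  set b1 := (∫ y, prof (‖bas T c1 y‖ ^ 2 / r1 ^ 2) ∂ν) / r1 ^ m
  set b0 := (∫ y, prof (‖bas T c0 y‖ ^ 2 / r0 ^ 2) ∂ν) / r0 ^ m
  have e1 : cm m * (a1 - a0) = (cm m * a1 - b1) + (b1 - b0) - (cm m * a0 - b0) := by ring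
  have h5 : cm m * |a1 - a0| ≤ 12 / rm ^ m * Dex T P ν z R
      + 5 * (‖c1 - c0‖ + |r1 - r0|) / rm ^ (m + 1) * Dex T P ν z R
      + 12 / rm ^ m * Dex T P ν z R := by
    calc cm m * |a1 - a0| = |cm m * (a1 - a0)| := by rw [abs_mul, abs_of_pos hcm]
      _ = |(cm m * a1 - b1) + (b1 - b0) - (cm m * a0 - b0)| := by rw [e1]
      _ ≤ |(cm m * a1 - b1) + (b1 - b0)| + |cm m * a0 - b0| := abs_sub _ _
      _ ≤ |cm m * a1 - b1| + |b1 - b0| + |cm m * a0 - b0| := by
          gcongr; exact abs_add_le _ _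
      _ ≤ _ := by gcongr
  have e2 : (24 * rm + 5 * (‖c1 - c0‖ + |r1 - r0|)) / (cm m * rm ^ (m + 1)) * Dex T P ν z R
      = (12 / rm ^ m * Dex T P ν z R
      + 5 * (‖c1 - c0‖ + |r1 - r0|) / rm ^ (m + 1) * Dex T P ν z R
      + 12 / rm ^ m * Dex T P ν z R) / cm m := by
    rw [pow_succ]; field_simp; ring
  rw [e2, le_div_iff₀ hcm]
  linarith

/-- the mass of a sharp cylinder is left continuous in the radius -/
lemma tendsto_mass [IsFiniteMeasure ν] (c : E) {r : ℝ} (hr : 0 < r) :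
    Tendsto (fun n : ℕ => ν.real (cylSet T c (r * (1 - 1 / ((n : ℝ) + 2))))) atTop
      (𝓝 (ν.real (cylSet T c r))) := by
  have hmono : Monotone fun n : ℕ => cylSet T c (r * (1 - 1 / ((n : ℝ) + 2))) := by
    intro a b hab y hy
    unfold cylSet at hy ⊢
    rw [mem_setOf_eq] at hy ⊢
    refine ball_subset_ball ?_ hy
    have : (a : ℝ) ≤ b := by exact_mod_cast hab
    gcongr
  have hU : ⋃ n : ℕ, cylSet T c (r * (1 - 1 / ((n : ℝ) + 2))) = cylSet T c r := by
    ext y
    simp only [mem_iUnion]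
    constructor
    · rintro ⟨n, hn⟩
      unfold cylSet at hn ⊢
      rw [mem_setOf_eq] at hn ⊢
      refine ball_subset_ball ?_ hn
      have : 0 ≤ 1 / ((n : ℝ) + 2) := by positivity
      nlinarith
    · intro hy
      unfold cylSet at hy
      rw [mem_setOf_eq, mem_ball] at hy
      have h1 : Tendsto (fun n : ℕ => r * (1 - 1 / ((n : ℝ) + 2))) atTop (𝓝 r) := by
        have h2 : Tendsto (fun n : ℕ => 1 / ((n : ℝ) + 2)) atTop (𝓝 0) := by
          refine Tendsto.div_atTop tendsto_const_nhds ?_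
          exact tendsto_atTop_add_const_right _ _ tendsto_natCast_atTop_atTop
        have := (h2.const_sub 1).const_mul r
        simpa using this
      obtain ⟨n, hn⟩ := (h1.eventually (lt_mem_nhds hy)).exists
      exact ⟨n, hn⟩
  have h1 := tendsto_measure_iUnion_atTop (μ := ν) hmono
  rw [hU] at h1
  exact (ENNReal.tendsto_toReal (measure_ne_top _ _)).comp h1

/-- **Masses of sharp cylinders.** If `ball z' r ⊆ ball z R` then the mass ratios of the cylinders
over the two balls differ by at most `C (R/r)^(m+1)` times the scaled excess. -/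
theorem mass_sub (hC : CylStat m T (ball z R) h ν P) (hz : z ∈ T) (hm : 1 ≤ m) {z' : E}
    (hz' : z' ∈ T) {r : ℝ} (hr : 0 < r) (hsub : ‖z' - z‖ + r ≤ R) :
    |ν.real (cylSet T z' r) / r ^ m - ν.real (cylSet T z R) / R ^ m|
      ≤ 24 * R / (cm m * r ^ (m + 1)) * exc T ν P z R := by
  haveI := hC.fin
  have hrR : r ≤ R := by linarith [norm_nonneg (z' - z)]
  have hR : 0 < R := hr.trans_le hrR
  have hcm := cm_pos m
  have hE0 : 0 ≤ exc T ν P z R := by rw [exc_eq hz hR]; exact Dex_nonneg hC R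
  set q : ℕ → ℝ := fun n => 1 - 1 / ((n : ℝ) + 2) with hq
  have hq0 : ∀ n, 0 < q n := by
    intro n
    have : 1 / ((n : ℝ) + 2) < 1 := by
      rw [div_lt_one (by positivity)]
      have : (0:ℝ) ≤ n := by positivity
      linarith
    simp only [hq]; linarith
  have hq1 : ∀ n, q n < 1 := by
    intro n
    have : 0 < 1 / ((n : ℝ) + 2) := by positivity
    simp only [hq]; linarith
  have hqt : Tendsto q atTop (𝓝 1) := by
    have h2 : Tendsto (fun n : ℕ => 1 / ((n : ℝ) + 2)) atTop (𝓝 0) := by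
      refine Tendsto.div_atTop tendsto_const_nhds ?_
      exact tendsto_atTop_add_const_right _ _ tendsto_natCast_atTop_atTop
    have := h2.const_sub 1
    rw [sub_zero] at this
    exact this
  have hrq : Tendsto (fun n => r * q n) atTop (𝓝 r) := by simpa using hqt.const_mul r
  have hRq : Tendsto (fun n => R * q n) atTop (𝓝 R) := by simpa using hqt.const_mul R
  have hbound : ∀ n, |ν.real (cylSet T z' (r * q n)) / (r * q n) ^ m
      - ν.real (cylSet T z (R * q n)) / (R * q n) ^ m|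
      ≤ (24 * (r * q n) + 5 * (‖z' - z‖ + |r * q n - R * q n|)) / (cm m * (r * q n) ^ (m + 1))
        * exc T ν P z R := by
    intro n
    have h1 := hq0 n
    have h2 := hq1 n
    refine mass_two hC hz hm hz hz' (by positivity) (by gcongr) le_rfl ?_ ?_
    · rw [sub_self, norm_zero, zero_add]; nlinarith
    · nlinarith
  have hL : Tendsto (fun n => |ν.real (cylSet T z' (r * q n)) / (r * q n) ^ m
      - ν.real (cylSet T z (R * q n)) / (R * q n) ^ m|) atTop
      (𝓝 |ν.real (cylSet T z' r) / r ^ m - ν.real (cylSet T z R) / R ^ m|) := by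
    refine Tendsto.abs (Tendsto.sub ?_ ?_)
    · exact (tendsto_mass z' hr).div (hrq.pow m) (by positivity)
    · exact (tendsto_mass z hR).div (hRq.pow m) (by positivity)
  have hRt : Tendsto (fun n => (24 * (r * q n) + 5 * (‖z' - z‖ + |r * q n - R * q n|))
      / (cm m * (r * q n) ^ (m + 1)) * exc T ν P z R) atTop
      (𝓝 ((24 * r + 5 * (‖z' - z‖ + |r - R|)) / (cm m * r ^ (m + 1)) * exc T ν P z R)) := by
    refine Tendsto.mul_const _ (Tendsto.div ?_ ((hrq.pow (m + 1)).const_mul (cm m))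
      (by positivity))
    exact (hrq.const_mul 24).add (((hrq.sub hRq).abs.const_add _).const_mul 5)
  refine (le_of_tendsto_of_tendsto' hL hRt hbound).trans ?_
  rw [abs_of_nonpos (by linarith : r - R ≤ 0)]
  gcongr
  have := norm_nonneg (z' - z)
  linarith

end Vale.Agent.P214.TCH
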