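import Vale.Agent.P214.TCH.Ball
import Vale.Agent.P214.QP.Mean

/-!
# P214, block TCH: masses of sharp cylinders

`mass_sub`: if `ball z' r ⊆ ball z R` then the mass ratio of the cylinder over `ball z' r` differs
from that of the cylinder over `ball z R` by at most `C (R/r)^(m+1)` times the excess over
`ball z R`.  Only stationarity is used (no integrality).
-/

open Set Filter Topology MeasureTheory Metric
open scoped RealInnerProductSpace

set_option linter.all false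

namespace Vale.Agent.P214.TCH

open Vale.Agent.P214.FV Vale.Agent.P214.Skel Vale.Agent.P214.ODE Vale.Agent.P214.QP

variable {E : Type*} [NormedAddCommGroup E] [InnerProductSpace ℝ E] [FiniteDimensional ℝ E]
  [MeasurableSpace E] [BorelSpace E]
variable {m : ℕ} {T : Submodule ℝ E} {h : ℝ} {ν : Measure E} {P : E → E →L[ℝ] E} {z : E} {R : ℝ}

lemma bx_eq_bas (hz : z ∈ T) (y : E) : bx T z y = bas T z y := by
  rw [bx_eq, bas, Submodule.starProjection_eq_self_iff.2 hz]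

lemma bsq_eq (hz : z ∈ T) (y : E) : bsq T z y = ‖bas T z y‖ ^ 2 := by
  rw [bsq, bx_eq_bas hz]

lemma bset_eq (hz : z ∈ T) {ρ : ℝ} (hρ : 0 < ρ) : bset T z ρ = cylSet T z ρ := by
  ext y
  rw [mem_cylSet hρ, ← bsq_eq hz]
  rfl

lemma exc_eq (hz : z ∈ T) {ρ : ℝ} (hρ : 0 < ρ) : exc T ν P z ρ = Dex T P ν z ρ := by
  unfold exc Dex
  rw [bset_eq hz hρ]
  simp only [otilt_eq]

/-- the constant `∫ prof / |ball|` -/
noncomputable def cm (m : ℕ) : ℝ := 8 / (((m : ℝ) + 2) * ((m : ℝ) + 4))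

lemma cm_pos (m : ℕ) : 0 < cm m := by unfold cm; positivity

lemma cm_le (m : ℕ) : cm m ≤ 1 := by
  unfold cm
  rw [div_le_one (by positivity)]
  have : (0:ℝ) ≤ m := by positivity
  nlinarith

/-- auxiliary profile -/
noncomputable def gp (m : ℕ) (ρ s : ℝ) : ℝ :=
  cm m - 1 + 2 * m / ((m : ℝ) + 2) * (s / ρ ^ 2) - m / ((m : ℝ) + 4) * (s / ρ ^ 2) ^ 2

lemma gp_zero (m : ℕ) {ρ : ℝ} (hρ : 0 < ρ) : gp m ρ (ρ ^ 2) = 0 := by
  unfold gp cm
  have h1 : ρ ^ 2 / ρ ^ 2 = 1 := div_self (by positivity)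
  rw [h1]
  have h2 : ((m : ℝ) + 2) ≠ 0 := by positivity
  have h4 : ((m : ℝ) + 4) ≠ 0 := by positivity
  field_simp
  ring

lemma hasDerivAt_gp (m : ℕ) (ρ s : ℝ) :
    HasDerivAt (gp m ρ) ((2 * m / ((m : ℝ) + 2) - 2 * (m / ((m : ℝ) + 4)) * (s / ρ ^ 2)) / ρ ^ 2)
      s := by
  have h1 : HasDerivAt (fun s : ℝ => s / ρ ^ 2) (1 / ρ ^ 2) s := (hasDerivAt_id s).div_const _
  have h2 := ((h1.const_mul (2 * m / ((m : ℝ) + 2))).const_add (cm m - 1)).sub
    ((h1.pow 2).const_mul (m / ((m : ℝ) + 4)))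
  refine h2.congr_deriv ?_
  ring

lemma contDiff_gp (m : ℕ) (ρ : ℝ) : ContDiff ℝ 1 (gp m ρ) := by
  unfold gp; fun_prop

lemma frac2 (m : ℕ) : 0 ≤ (m : ℝ) / ((m : ℝ) + 2) ∧ (m : ℝ) / ((m : ℝ) + 2) ≤ 1 := by
  constructor
  · positivity
  · rw [div_le_one (by positivity)]; linarith

lemma frac4 (m : ℕ) : 0 ≤ (m : ℝ) / ((m : ℝ) + 4) ∧ (m : ℝ) / ((m : ℝ) + 4) ≤ 1 := by
  constructor
  · positivity
  · rw [div_le_one (by positivity)]; linarith

lemma abs_gp_le (m : ℕ) {ρ s : ℝ} (hρ : 0 < ρ) (h0 : 0 ≤ s) (h1 : s ≤ ρ ^ 2) :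
    |gp m ρ s| ≤ 4 := by
  have hs : 0 ≤ s / ρ ^ 2 := by positivity
  have hs1 : s / ρ ^ 2 ≤ 1 := by rw [div_le_one (by positivity)]; exact h1
  obtain ⟨a1, a2⟩ := frac2 m
  obtain ⟨b1, b2⟩ := frac4 m
  have c1 := (cm_pos m).le
  have c2 := cm_le m
  unfold gp
  have e : 2 * (m : ℝ) / ((m : ℝ) + 2) = 2 * ((m : ℝ) / ((m : ℝ) + 2)) := by ring
  rw [e]
  set a := (m : ℝ) / ((m : ℝ) + 2)
  set b := (m : ℝ) / ((m : ℝ) + 4)
  set σ := s / ρ ^ 2
  have h2 : 0 ≤ a * σ := mul_nonneg a1 hs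
  have h3 : a * σ ≤ 1 := mul_le_one₀ a2 hs hs1
  have h4 : 0 ≤ b * σ ^ 2 := by positivity
  have h5 : b * σ ^ 2 ≤ 1 := mul_le_one₀ b2 (by positivity) (pow_le_one₀ hs hs1)
  rw [abs_le]
  constructor <;> nlinarith

lemma abs_deriv_gp_le (m : ℕ) {ρ s : ℝ} (hρ : 0 < ρ) (h0 : 0 ≤ s) (h1 : s ≤ ρ ^ 2) :
    |deriv (gp m ρ) s| * s ≤ 4 := by
  rw [(hasDerivAt_gp m ρ s).deriv]
  have hs : 0 ≤ s / ρ ^ 2 := by positivity
  have hs1 : s / ρ ^ 2 ≤ 1 := by rw [div_le_one (by positivity)]; exact h1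
  obtain ⟨a1, a2⟩ := frac2 m
  obtain ⟨b1, b2⟩ := frac4 m
  have e : 2 * (m : ℝ) / ((m : ℝ) + 2) = 2 * ((m : ℝ) / ((m : ℝ) + 2)) := by ring
  rw [e, abs_div, abs_of_pos (show (0:ℝ) < ρ ^ 2 by positivity), div_mul_eq_mul_div,
    ← mul_div_assoc']
  set a := (m : ℝ) / ((m : ℝ) + 2)
  set b := (m : ℝ) / ((m : ℝ) + 4)
  set σ := s / ρ ^ 2
  have h4 : 0 ≤ b * σ := mul_nonneg b1 hs
  have h5 : b * σ ≤ 1 := mul_le_one₀ b2 hs hs1
  have h6 : |2 * a - 2 * b * σ| ≤ 4 := by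
    rw [abs_le]; constructor <;> nlinarith
  calc |2 * a - 2 * b * σ| * σ ≤ 4 * 1 := by gcongr
    _ = 4 := by ring

/-- the algebra of the profile -/
lemma gp_identity (m : ℕ) {ρ s : ℝ} (hρ : 0 < ρ) :
    (m : ℝ) * gp m ρ s + 2 * deriv (gp m ρ) s * s = m * (cm m - (1 - s / ρ ^ 2) ^ 2) := by
  rw [(hasDerivAt_gp m ρ s).deriv]
  unfold gp
  have h2 : ((m : ℝ) + 2) ≠ 0 := by positivity
  have h4 : ((m : ℝ) + 4) ≠ 0 := by positivity
  have hρ' : ρ ≠ 0 := hρ.ne'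
  field_simp
  ring

/-- pointwise data at a.e. point -/
lemma ae_data (hC : CylStat m T (ball z R) h ν P) (hz : z ∈ T) :
    ∀ᵐ y ∂ν, tr (T.starProjection.comp (P y)) = m - ODE.tilt T P y ∧ 0 ≤ ODE.tilt T P y ∧
      ∃ B, 0 ≤ B ∧ B ≤ ODE.tilt T P y * ‖bas T z y‖ ^ 2 ∧
        ⟪bas T z y, P y (bas T z y)⟫ = ‖bas T z y‖ ^ 2 - B := by
  filter_upwards [hC.proj, CylStat.tilt_nonneg hC, (CylStat.plane hC).tilt_eq (T := T)]
    with y hy h1 h2
  obtain ⟨S, hS, hP⟩ := hy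
  refine ⟨h2, h1, ⟪bas T z y, defect T (P y) (bas T z y)⟫, ?_, ?_, ?_⟩
  · rw [hP]; exact inner_defect_nonneg S T _
  · rw [otilt_eq, hP]
    have := inner_defect_le S T (hS.trans hC.dimT.symm) (bas T z y)
    rwa [Submodule.starProjection_eq_self_iff.2 (bas_mem hz y)] at this
  · exact inner_star_eq_sub_defect T (bas_mem hz y) (P y)

/-- **Sharp versus smooth mass.** -/
theorem sharp_smooth (hC : CylStat m T (ball z R) h ν P) (hz : z ∈ T) (hm : 1 ≤ m) {ρ : ℝ}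
    (h0 : 0 < ρ) (hρ : ρ ≤ R) :
    |cm m * ν.real (cylSet T z ρ) - ∫ y, prof (bsq T z y / ρ ^ 2) ∂ν| ≤ 12 * Dex T P ν z ρ := by
  have := hC.fin
  have hid := virial_ball hC hz h0 hρ (contDiff_gp m ρ) (gp_zero m h0)
  have hbc : Continuous (bas T z) := (contDiff_bas (n := 0) T z).continuous
  have hsc : Continuous fun y => ‖bas T z y‖ ^ 2 := hbc.norm.pow 2
  have hms := measurableSet_cylSet T z ρ
  have hdat := ae_data hC hz
  -- the error integrand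
  set er : E → ℝ := fun y => (m : ℝ) * (cm m - (1 - ‖bas T z y‖ ^ 2 / ρ ^ 2) ^ 2)
    - (gp m ρ (‖bas T z y‖ ^ 2) * tr (T.starProjection.comp (P y)) +
      2 * deriv (gp m ρ) (‖bas T z y‖ ^ 2) * ⟪bas T z y, P y (bas T z y)⟫) with her
  have hcont : Continuous fun y => (m : ℝ) * (cm m - (1 - ‖bas T z y‖ ^ 2 / ρ ^ 2) ^ 2) := by
    fun_prop
  have hmain_int : IntegrableOn (fun y => (m : ℝ) * (cm m - (1 - ‖bas T z y‖ ^ 2 / ρ ^ 2) ^ 2))
      (cylSet T z ρ) ν := by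
    refine Measure.integrableOn_of_bounded (M := (m : ℝ) * 2) (measure_ne_top _ _)
      hcont.aestronglyMeasurable ?_
    rw [ae_restrict_iff' hms]
    refine Eventually.of_forall fun y hy => ?_
    have h1 : ‖bas T z y‖ ^ 2 / ρ ^ 2 ≤ 1 := by
      rw [div_le_one (by positivity)]; exact ((mem_cylSet h0).1 hy).le
    have h2 : 0 ≤ ‖bas T z y‖ ^ 2 / ρ ^ 2 := by positivity
    have h3 : (1 - ‖bas T z y‖ ^ 2 / ρ ^ 2) ^ 2 ≤ 1 := pow_le_one₀ (by linarith) (by linarith)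
    have h4 : 0 ≤ (1 - ‖bas T z y‖ ^ 2 / ρ ^ 2) ^ 2 := sq_nonneg _
    have h5 := cm_le m
    have h6 := (cm_pos m).le
    rw [norm_mul, Real.norm_of_nonneg (by positivity : (0:ℝ) ≤ m)]
    gcongr
    rw [Real.norm_eq_abs, abs_le]; constructor <;> linarith
  have hptw : ∀ᵐ y ∂ν, y ∈ cylSet T z ρ → |er y| ≤ 12 * ODE.tilt T P y := by
    filter_upwards [hdat] with y hy hyc
    obtain ⟨h1, h2, B, hB0, hB1, hB2⟩ := hy
    have hs1 : ‖bas T z y‖ ^ 2 ≤ ρ ^ 2 := ((mem_cylSet h0).1 hyc).le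
    have hs0 : 0 ≤ ‖bas T z y‖ ^ 2 := by positivity
    simp only [her]
    rw [← gp_identity m h0, h1, hB2]
    have e : (m : ℝ) * gp m ρ (‖bas T z y‖ ^ 2)
        + 2 * deriv (gp m ρ) (‖bas T z y‖ ^ 2) * ‖bas T z y‖ ^ 2
        - (gp m ρ (‖bas T z y‖ ^ 2) * (m - ODE.tilt T P y)
          + 2 * deriv (gp m ρ) (‖bas T z y‖ ^ 2) * (‖bas T z y‖ ^ 2 - B))
        = gp m ρ (‖bas T z y‖ ^ 2) * ODE.tilt T P y
          + 2 * (deriv (gp m ρ) (‖bas T z y‖ ^ 2) * B) := by ring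
    rw [e]
    have g1 := abs_gp_le m h0 hs0 hs1
    have g2 := abs_deriv_gp_le m h0 hs0 hs1
    calc |gp m ρ (‖bas T z y‖ ^ 2) * ODE.tilt T P y
          + 2 * (deriv (gp m ρ) (‖bas T z y‖ ^ 2) * B)|
        ≤ |gp m ρ (‖bas T z y‖ ^ 2) * ODE.tilt T P y|
          + |2 * (deriv (gp m ρ) (‖bas T z y‖ ^ 2) * B)| := abs_add_le _ _
      _ ≤ 4 * ODE.tilt T P y + 2 * (4 * ODE.tilt T P y) := by
          refine add_le_add ?_ ?_
          · rw [abs_mul, abs_of_nonneg h2]; gcongr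
          · rw [abs_mul, abs_mul, abs_of_nonneg hB0, abs_of_pos (by norm_num : (0:ℝ) < 2)]
            have : |deriv (gp m ρ) (‖bas T z y‖ ^ 2)| * B
                ≤ (|deriv (gp m ρ) (‖bas T z y‖ ^ 2)| * ‖bas T z y‖ ^ 2) * ODE.tilt T P y := by
              calc |deriv (gp m ρ) (‖bas T z y‖ ^ 2)| * B
                  ≤ |deriv (gp m ρ) (‖bas T z y‖ ^ 2)|
                    * (ODE.tilt T P y * ‖bas T z y‖ ^ 2) := by gcongr
                _ = _ := by ring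
            calc 2 * (|deriv (gp m ρ) (‖bas T z y‖ ^ 2)| * B)
                ≤ 2 * ((|deriv (gp m ρ) (‖bas T z y‖ ^ 2)| * ‖bas T z y‖ ^ 2)
                  * ODE.tilt T P y) := by gcongr
              _ ≤ 2 * (4 * ODE.tilt T P y) := by gcongr
      _ = 12 * ODE.tilt T P y := by ring
  have hidi : IntegrableOn (fun y => gp m ρ (‖bas T z y‖ ^ 2) * tr (T.starProjection.comp (P y)) +
      2 * deriv (gp m ρ) (‖bas T z y‖ ^ 2) * ⟪bas T z y, P y (bas T z y)⟫) (cylSet T z ρ) ν := by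
    have hbm : AEStronglyMeasurable (bas T z) ν := hbc.aestronglyMeasurable
    have hm1 : AEStronglyMeasurable (fun y => gp m ρ (‖bas T z y‖ ^ 2)
        * tr (T.starProjection.comp (P y)) + 2 * deriv (gp m ρ) (‖bas T z y‖ ^ 2)
        * ⟪bas T z y, P y (bas T z y)⟫) ν := by
      have htrm : AEStronglyMeasurable (fun y => tr (T.starProjection.comp (P y))) ν := by
        refine continuous_tr.comp_aestronglyMeasurable ?_
        have : Continuous fun p : E →L[ℝ] E => T.starProjection.comp p := by fun_prop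
        exact this.comp_aestronglyMeasurable hC.meas
      have hinm : AEStronglyMeasurable (fun y => ⟪bas T z y, P y (bas T z y)⟫) ν :=
        hbm.inner (aesm_clm_apply hC.meas hbm)
      have h1 : Continuous fun y => gp m ρ (‖bas T z y‖ ^ 2) := (contDiff_gp m ρ).continuous.comp hsc
      have h2 : Continuous fun y => deriv (gp m ρ) (‖bas T z y‖ ^ 2) :=
        ((contDiff_gp m ρ).continuous_deriv (by norm_num)).comp hsc
      exact (h1.aestronglyMeasurable.mul htrm).add ((h2.aestronglyMeasurable.const_mul 2).mul hinm)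
    refine Measure.integrableOn_of_bounded (M := 4 * (m + 2 * Module.finrank ℝ E) + 8)
      (measure_ne_top _ _) hm1 ?_
    rw [ae_restrict_iff' hms]
    filter_upwards [hdat, abs_tilt_bd hC, CylStat.pt hC] with y hy htb hpt hyc
    obtain ⟨h1, h2, B, hB0, hB1, hB2⟩ := hy
    have hs1 : ‖bas T z y‖ ^ 2 ≤ ρ ^ 2 := ((mem_cylSet h0).1 hyc).le
    have hs0 : 0 ≤ ‖bas T z y‖ ^ 2 := by positivity
    have g1 := abs_gp_le m h0 hs0 hs1
    have g2 := abs_deriv_gp_le m h0 hs0 hs1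
    rw [h1]
    refine (norm_add_le _ _).trans (add_le_add ?_ ?_)
    · rw [norm_mul, Real.norm_eq_abs, Real.norm_eq_abs]
      gcongr
      calc |(m : ℝ) - ODE.tilt T P y| ≤ |(m : ℝ)| + |ODE.tilt T P y| := abs_sub _ _
        _ ≤ m + 2 * Module.finrank ℝ E := by
          rw [abs_of_nonneg (by positivity : (0:ℝ) ≤ m)]; gcongr
    · rw [norm_mul, norm_mul, Real.norm_eq_abs, Real.norm_eq_abs, Real.norm_eq_abs,
        abs_of_pos (by norm_num : (0:ℝ) < 2), hB2]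
      have hin : |‖bas T z y‖ ^ 2 - B| ≤ ‖bas T z y‖ ^ 2 := by
        rw [← hB2, abs_of_nonneg hpt.2.1]
        exact hpt.2.2
      calc 2 * |deriv (gp m ρ) (‖bas T z y‖ ^ 2)| * |‖bas T z y‖ ^ 2 - B|
          ≤ 2 * |deriv (gp m ρ) (‖bas T z y‖ ^ 2)| * ‖bas T z y‖ ^ 2 := by gcongr
        _ = 2 * (|deriv (gp m ρ) (‖bas T z y‖ ^ 2)| * ‖bas T z y‖ ^ 2) := by ring
        _ ≤ 2 * 4 := by gcongr
        _ = 8 := by norm_num
  have hE : |∫ y in cylSet T z ρ, er y ∂ν| ≤ 12 * Dex T P ν z ρ := by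
    have h1 : |∫ y in cylSet T z ρ, er y ∂ν| ≤ ∫ y in cylSet T z ρ, |er y| ∂ν :=
      abs_integral_le_integral_abs
    refine h1.trans ?_
    unfold Dex
    rw [bset_eq hz h0, ← integral_const_mul]
    refine setIntegral_mono_on_ae (hmain_int.sub hidi).abs
      ((integrable_tilt hC).const_mul _).integrableOn hms hptw
  have hsplit : ∫ y in cylSet T z ρ, er y ∂ν
      = ∫ y in cylSet T z ρ, (m : ℝ) * (cm m - (1 - ‖bas T z y‖ ^ 2 / ρ ^ 2) ^ 2) ∂ν := by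
    simp only [her]
    rw [integral_sub hmain_int hidi, hid, sub_zero]
  have hprof : ∫ y, prof (bsq T z y / ρ ^ 2) ∂ν
      = ∫ y in cylSet T z ρ, (1 - ‖bas T z y‖ ^ 2 / ρ ^ 2) ^ 2 ∂ν := by
    rw [← integral_indicator hms]
    refine integral_congr_ae (Eventually.of_forall fun y => ?_)
    simp only
    by_cases hy : y ∈ cylSet T z ρ
    · rw [indicator_of_mem hy, prof, max_eq_left, bsq_eq hz]
      have := ((mem_cylSet h0).1 hy).le
      rw [bsq_eq hz, sub_nonneg, div_le_one (by positivity)]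
      exact this
    · rw [indicator_of_notMem hy]
      refine prof_of_one_le ?_
      have : ¬ ‖bas T z y‖ ^ 2 < ρ ^ 2 := fun h => hy ((mem_cylSet h0).2 h)
      rw [bsq_eq hz, one_le_div (by positivity)]
      exact not_lt.1 this
  have hmain : ∫ y in cylSet T z ρ, (m : ℝ) * (cm m - (1 - ‖bas T z y‖ ^ 2 / ρ ^ 2) ^ 2) ∂ν
      = m * (cm m * ν.real (cylSet T z ρ) - ∫ y, prof (bsq T z y / ρ ^ 2) ∂ν) := by
    rw [integral_const_mul, hprof]
    congr 1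
    have hi1 : IntegrableOn (fun _ : E => cm m) (cylSet T z ρ) ν := integrable_const _
    have hi2 : IntegrableOn (fun y => (1 - ‖bas T z y‖ ^ 2 / ρ ^ 2) ^ 2) (cylSet T z ρ) ν := by
      have hm0 : (m : ℝ) ≠ 0 := by positivity
      have := (hi1.sub (hmain_int.const_mul (m : ℝ)⁻¹))
      refine this.congr (Eventually.of_forall fun y => ?_)
      simp only [Pi.sub_apply]
      field_simp
      ring
    rw [integral_sub hi1 hi2, setIntegral_const, smul_eq_mul]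
    ring
  rw [hsplit, hmain, abs_mul, abs_of_nonneg (by positivity : (0:ℝ) ≤ m)] at hE
  have hm1 : (1:ℝ) ≤ m := by exact_mod_cast hm
  calc |cm m * ν.real (cylSet T z ρ) - ∫ y, prof (bsq T z y / ρ ^ 2) ∂ν|
      = 1 * |cm m * ν.real (cylSet T z ρ) - ∫ y, prof (bsq T z y / ρ ^ 2) ∂ν| := (one_mul _).symm
    _ ≤ m * |cm m * ν.real (cylSet T z ρ) - ∫ y, prof (bsq T z y / ρ ^ 2) ∂ν| := by gcongr
    _ ≤ 12 * Dex T P ν z ρ := hE

end Vale.Agent.P214.TCH
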