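import Vale.Agent.P214.TCH.Const
import Vale.Agent.P214.AREA.Conv
import Vale.Agent.P214.INT.NearMain

/-!
# P214, block TCH: persistence of the mass fraction (near integrality, `Skel` form)

`nik`: if the cylinder over `ball z R` has mass fraction within `η` of `Q` and small excess
(depending on `η`), then every cylinder over a ball of comparable radius inside has mass fraction
within the SAME `η` of `Q`.
-/

open Set Filter Topology MeasureTheory Metric
open scoped RealInnerProductSpace

set_option linter.all false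

namespace Vale.Agent.P214.TCH

open Vale.Agent.P214.FV Vale.Agent.P214.Skel Vale.Agent.P214.ODE Vale.Agent.P214.QP

variable {E : Type*} [NormedAddCommGroup E] [InnerProductSpace ℝ E] [FiniteDimensional ℝ E]
  [MeasurableSpace E] [BorelSpace E]
variable {m : ℕ} {T : Submodule ℝ E} {h : ℝ} {ν : Measure E} {P : E → E →L[ℝ] E} {z : E} {R : ℝ}

lemma exc_nonneg (hC : CylStat m T (ball z R) h ν P) (z' : E) (r : ℝ) : 0 ≤ exc T ν P z' r := by
  unfold exc
  refine integral_nonneg_of_ae (ae_restrict_of_ae ?_)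
  filter_upwards [hC.proj] with y hy
  obtain ⟨S, -, hP⟩ := hy
  simp only [Pi.zero_apply]
  rw [hP]; exact FV.tilt_nonneg S T

lemma integrable_tilt' (hC : CylStat m T (ball z R) h ν P) :
    Integrable (fun y => FV.tilt T (P y)) ν :=
  (integrable_tilt hC).congr (Eventually.of_forall fun y => otilt_eq T P y)

lemma exc_mono (hC : CylStat m T (ball z R) h ν P) {z' z'' : E} {r s : ℝ}
    (hsub : ‖z' - z''‖ + r ≤ s) : exc T ν P z' r ≤ exc T ν P z'' s := by
  unfold exc
  refine setIntegral_mono_set (integrable_tilt' hC).integrableOn ?_ ?_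
  · refine ae_restrict_of_ae ?_
    filter_upwards [hC.proj] with y hy
    obtain ⟨S, -, hP⟩ := hy
    simp only [Pi.zero_apply]
    rw [hP]; exact FV.tilt_nonneg S T
  · refine HasSubset.Subset.eventuallyLE fun y hy => ?_
    have hy' : T.starProjection y ∈ ball z' r := hy
    rw [mem_ball, dist_eq_norm] at hy'
    show T.starProjection y ∈ ball z'' s
    rw [mem_ball, dist_eq_norm]
    calc ‖T.starProjection y - z''‖ = ‖(T.starProjection y - z') + (z' - z'')‖ := by
          congr 1; abel
      _ ≤ ‖T.starProjection y - z'‖ + ‖z' - z''‖ := norm_add_le _ _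
      _ < s := by linarith

/-- operator norm against tilt -/
lemma norm_sq_le_tilt {S : Submodule ℝ E} (hS : Module.finrank ℝ S = Module.finrank ℝ T) :
    ‖S.starProjection - T.starProjection‖ ^ 2 ≤ 2 * FV.tilt T S.starProjection := by
  rw [← hs_sub S T hS]
  have h0 := hs_nonneg (S.starProjection - T.starProjection)
  have h1 : ‖S.starProjection - T.starProjection‖
      ≤ √(hs (S.starProjection - T.starProjection)) := by
    refine ContinuousLinearMap.opNorm_le_bound _ (Real.sqrt_nonneg _) fun v => ?_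
    refine le_of_sq_le_sq ?_ (by positivity)
    rw [mul_pow, Real.sq_sqrt h0]
    exact norm_sq_le_hs _ v
  calc ‖S.starProjection - T.starProjection‖ ^ 2
      ≤ (√(hs (S.starProjection - T.starProjection))) ^ 2 := by gcongr
    _ = _ := Real.sq_sqrt h0

/-- **Persistence of the mass fraction**, strong form: a rough input mass fraction is enough. -/
theorem nik' (m Q : ℕ) (hm : 1 ≤ m) {η : ℝ} (hη : 0 < η) (hη1 : η ≤ om m / 4) :
    ∃ δ > 0, ∀ (T : Submodule ℝ E) (z : E) (R h : ℝ) (ν : Measure E) (P : E → E →L[ℝ] E),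
      IntCyl m Q T z R h (om m / 3) ν P → exc T ν P z R ≤ δ * R ^ m →
      ∀ (z' : E) (r : ℝ), z' ∈ T → R / 64 ≤ r → ‖z' - z‖ + 2 * r ≤ R →
        IntCyl m Q T z' r h η ν P := by
  have hom := om_pos m
  have hcm := cm_pos m
  have hcg : 0 < cg m := by rw [cg_eq]; positivity
  set M : ℝ := 2 ^ m * (Q * om m + om m) with hM
  have hM0 : 0 < M := by positivity
  set ε₁ : ℝ := η / (2 * om m) with hε₁
  have hε₁0 : 0 < ε₁ := by positivity
  obtain ⟨δ₀, hδ₀, hnear⟩ := INT.near_integer' (E := E) m hM0 hε₁0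
  set K : ℝ := 24 * 64 ^ (m + 1) / cm m + 12 * 64 ^ m / cm m with hK
  have hK0 : 0 < K := by positivity
  refine ⟨min (δ₀ / (2 * 32 ^ m)) (η / (4 * K)), by positivity, ?_⟩
  intro T z R h ν P hI hexc z' r hz' hr hsub
  haveI := hI.cyl.fin
  have hR := hI.pos
  have hr0 : 0 < r := lt_of_lt_of_le (by positivity) hr
  have hE0 := exc_nonneg hI.cyl z R
  have hRm : 0 < R ^ m := by positivity
  have hrm : 0 < r ^ m := by positivity
  -- `exc / R^m` and `exc / r^m`
  have hex1 : exc T ν P z R ≤ η / (4 * K) * R ^ m :=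
    hexc.trans (by gcongr; exact min_le_right _ _)
  have hex2 : exc T ν P z R ≤ δ₀ / (2 * 32 ^ m) * R ^ m :=
    hexc.trans (by gcongr; exact min_le_left _ _)
  have hRr : R ≤ 64 * r := by linarith
  -- comparison with the big cylinder
  have h1 := mass_sub hI.cyl hI.mem hm hz' hr0 (by linarith [norm_nonneg (z' - z)])
  have h2 : 24 * R / (cm m * r ^ (m + 1)) * exc T ν P z R ≤ 24 * 64 ^ (m + 1) / cm m *
      (η / (4 * K)) := by
    have h3 : R ^ (m + 1) ≤ 64 ^ (m + 1) * r ^ (m + 1) := by
      rw [← mul_pow]; gcongr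
    calc 24 * R / (cm m * r ^ (m + 1)) * exc T ν P z R
        ≤ 24 * R / (cm m * r ^ (m + 1)) * (η / (4 * K) * R ^ m) := by gcongr
      _ = 24 * (η / (4 * K)) / cm m * (R ^ (m + 1) / r ^ (m + 1)) := by
          rw [pow_succ R m]; field_simp
      _ ≤ 24 * (η / (4 * K)) / cm m * 64 ^ (m + 1) := by
          gcongr
          rw [div_le_iff₀ (by positivity)]; exact h3
      _ = _ := by ring
  have h4 : |ν.real (cylSet T z R) / R ^ m - Q * om m| ≤ om m / 3 := by
    have h5 := hI.mass
    have h6 : ν.real (cylSet T z R) / R ^ m - Q * om m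
        = (ν.real (cylSet T z R) - Q * om m * R ^ m) / R ^ m := by field_simp
    rw [h6, abs_div, abs_of_pos hRm, div_le_iff₀ hRm]
    exact h5
  -- the near integer
  obtain ⟨S, θ, -, -, -, hS⟩ := AREA.intCyl_of_skel hI (A := univ)
    (Eventually.of_forall fun y _ => mem_univ y)
  set ν' := ν.restrict (cylSet T z R) with hν'
  haveI := hS.stat.fin
  have hcylsub : ∀ {x : E} {s : ℝ}, x ∈ T → ‖x - z‖ + s ≤ R → cylSet T x s ⊆ cylSet T z R := by
    intro x s hx hs y hy
    have hy' : T.starProjection y ∈ ball x s := hy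
    rw [mem_ball, dist_eq_norm] at hy'
    show T.starProjection y ∈ ball z R
    rw [mem_ball, dist_eq_norm]
    calc ‖T.starProjection y - z‖ = ‖(T.starProjection y - x) + (x - z)‖ := by congr 1; abel
      _ ≤ ‖T.starProjection y - x‖ + ‖x - z‖ := norm_add_le _ _
      _ < R := by linarith
  have hcyl : ∀ s, INT.cyl T z' s = cylSet T z' s := by
    intro s
    unfold INT.cyl cylSet
    rw [Submodule.starProjection_eq_self_iff.2 hz']
    rfl
  have hrestr : ∀ {x : E} {s : ℝ}, x ∈ T → ‖x - z‖ + s ≤ R →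
      ν'.real (cylSet T x s) = ν.real (cylSet T x s) := by
    intro x s hx hs
    rw [hν', measureReal_restrict_apply (measurableSet_cylSet T x s),
      inter_eq_left.2 (hcylsub hx hs)]
  obtain ⟨q, hq⟩ := hnear T (ball z R) h ν' P S θ _ z' r hS hz' hr0 (by
      rw [hcyl]; exact hcylsub hz' hsub) (by
      rw [hcyl, hrestr hz' hsub]
      have h5 := mass_sub hI.cyl hI.mem hm hz' (r := 2 * r) (by positivity) hsub
      have h6 : 24 * R / (cm m * (2 * r) ^ (m + 1)) * exc T ν P z R
          ≤ 24 * 64 ^ (m + 1) / cm m * (η / (4 * K)) := by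
        refine le_trans ?_ h2
        gcongr
        linarith
      have h7 : 24 * 64 ^ (m + 1) / cm m * (η / (4 * K)) ≤ η / 4 := by
        have h8 : 24 * 64 ^ (m + 1) / cm m ≤ K := by
          rw [hK]; have : 0 ≤ 12 * 64 ^ m / cm m := by positivity
          linarith
        calc _ ≤ K * (η / (4 * K)) := by gcongr
          _ = η / 4 := by field_simp
      have h9 : ν.real (cylSet T z' (2 * r)) / (2 * r) ^ m ≤ Q * om m + om m := by
        have a1 := (abs_le.1 h5).2
        have a2 := (abs_le.1 h4).2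
        linarith
      rw [div_le_iff₀ (by positivity)] at h9
      refine h9.trans (le_of_eq ?_)
      rw [hM, mul_pow]; ring) (by
      unfold INT.exc
      rw [hcyl, div_le_iff₀ (by positivity)]
      have h5 : ∫ y in cylSet T z' (2 * r), INT.tilt P T y ^ 2 ∂ν'
          ≤ ∫ y in cylSet T z' (2 * r), 2 * FV.tilt T (P y) ∂ν' := by
        have hT := integrable_tilt' hS.stat
        refine integral_mono_of_nonneg (Eventually.of_forall fun y => by positivity)
          (hT.const_mul 2).integrableOn (ae_restrict_of_ae ?_)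
        filter_upwards [hS.stat.proj] with y hy
        obtain ⟨L, hL, hP⟩ := hy
        unfold INT.tilt
        rw [hP]
        exact norm_sq_le_tilt (hL.trans hS.stat.dimT.symm)
      refine h5.trans ?_
      have h6 : ∫ y in cylSet T z' (2 * r), 2 * FV.tilt T (P y) ∂ν'
          ≤ 2 * exc T ν P z R := by
        rw [integral_const_mul]
        gcongr
        rw [hν', Measure.restrict_restrict (measurableSet_cylSet T z' (2 * r)),
          inter_eq_left.2 (hcylsub hz' hsub)]
        exact exc_mono hI.cyl hsub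
      refine h6.trans ?_
      calc 2 * exc T ν P z R ≤ 2 * (δ₀ / (2 * 32 ^ m) * R ^ m) := by gcongr
        _ ≤ 2 * (δ₀ / (2 * 32 ^ m) * (32 * (2 * r)) ^ m) := by gcongr; linarith
        _ = δ₀ * (2 * r) ^ m := by rw [mul_pow 32]; field_simp)
  -- sharp and smooth masses
  have hsh := sharp_smooth (CylStat.mono hI.cyl isOpen_ball (fun x hx => by
      rw [mem_ball, dist_eq_norm] at hx ⊢
      calc ‖x - z‖ = ‖(x - z') + (z' - z)‖ := by congr 1; abel
        _ ≤ ‖x - z'‖ + ‖z' - z‖ := norm_add_le _ _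
        _ < R := by linarith : ball z' r ⊆ ball z R)) hz' hm hr0 le_rfl
  have hht : INT.htot m T ν' z' r = (∫ y, prof (bsq T z' y / r ^ 2) ∂ν) / r ^ m := by
    unfold INT.htot
    congr 1
    rw [hν', setIntegral_eq_integral_of_forall_compl_eq_zero]
    · refine integral_congr_ae (Eventually.of_forall fun y => ?_)
      simp only [bsq_eq hz', Submodule.starProjection_eq_self_iff.2 hz']
      rfl
    · intro y hy
      rw [Submodule.starProjection_eq_self_iff.2 hz']
      have h5 : y ∉ cylSet T z' r := fun h => hy (hcylsub hz' (by linarith) h)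
      rw [mem_cylSet hr0, not_lt] at h5
      refine prof_of_one_le ?_
      rw [one_le_div (by positivity)]
      exact h5
  have hDex : Dex T P ν z' r ≤ exc T ν P z R := by
    rw [← exc_eq hz' hr0]; exact exc_mono hI.cyl (by linarith)
  have hns : |ν.real (cylSet T z' r) / r ^ m - q * om m| ≤ η := by
    have e1 : ν.real (cylSet T z' r) / r ^ m - q * om m
        = (cm m * ν.real (cylSet T z' r) - ∫ y, prof (bsq T z' y / r ^ 2) ∂ν) / (cm m * r ^ m)
          + om m * (INT.htot m T ν' z' r / cg m - q) := by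
      rw [hht, cg_eq]; field_simp; ring
    have e2 : |(cm m * ν.real (cylSet T z' r) - ∫ y, prof (bsq T z' y / r ^ 2) ∂ν)
        / (cm m * r ^ m)| ≤ η / 2 := by
      rw [abs_div, abs_of_pos (by positivity : 0 < cm m * r ^ m), div_le_iff₀ (by positivity)]
      calc _ ≤ 12 * Dex T P ν z' r := hsh
        _ ≤ 12 * (η / (4 * K) * R ^ m) := by gcongr; exact hDex.trans hex1
        _ ≤ 12 * (η / (4 * K) * (64 * r) ^ m) := by gcongr
        _ = (12 * 64 ^ m / cm m) * (η / (4 * K)) * (cm m * r ^ m) := by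
            rw [mul_pow]; field_simp
        _ ≤ K * (η / (4 * K)) * (cm m * r ^ m) := by
            gcongr
            rw [hK]; have : 0 ≤ 24 * 64 ^ (m + 1) / cm m := by positivity
            linarith
        _ ≤ η / 2 * (cm m * r ^ m) := by
            gcongr
            have : K * (η / (4 * K)) = η / 4 := by field_simp
            linarith
    rw [e1]
    refine (abs_add_le _ _).trans ?_
    rw [abs_mul, abs_of_pos hom]
    have e3 : om m * |INT.htot m T ν' z' r / cg m - q| ≤ η / 2 := by
      calc _ ≤ om m * ε₁ := by gcongr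
        _ = η / 2 := by rw [hε₁]; field_simp
    linarith
  -- the integer is `Q`
  have hqQ : q = Q := by
    have h7 : 24 * 64 ^ (m + 1) / cm m * (η / (4 * K)) ≤ η / 4 := by
      have h8 : 24 * 64 ^ (m + 1) / cm m ≤ K := by
        rw [hK]; have : 0 ≤ 12 * 64 ^ m / cm m := by positivity
        linarith
      calc _ ≤ K * (η / (4 * K)) := by gcongr
        _ = η / 4 := by field_simp
    have h8 : |(q : ℝ) - Q| * om m < om m := by
      have e1 : ((q : ℝ) - Q) * om m = -(ν.real (cylSet T z' r) / r ^ m - q * om m)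
          + (ν.real (cylSet T z' r) / r ^ m - ν.real (cylSet T z R) / R ^ m)
          + (ν.real (cylSet T z R) / R ^ m - Q * om m) := by ring
      calc |(q : ℝ) - Q| * om m = |((q : ℝ) - Q) * om m| := by rw [abs_mul, abs_of_pos hom]
        _ ≤ η + η / 4 + om m / 3 := by
            rw [e1]
            refine (abs_add_le _ _).trans (add_le_add ((abs_add_le _ _).trans
              (add_le_add ?_ ?_)) h4)
            · rw [abs_neg]; exact hns
            · exact h1.trans (h2.trans h7)
        _ < om m := by linarith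
    have h9 : |(q : ℝ) - Q| < 1 := by
      by_contra hcon
      rw [not_lt] at hcon
      nlinarith
    have h10 : |((q : ℤ) - (Q : ℤ) : ℤ)| < 1 := by
      have : ((|((q : ℤ) - (Q : ℤ) : ℤ)| : ℤ) : ℝ) < 1 := by
        push_cast; exact h9
      exact_mod_cast this
    have h11 := Int.abs_lt_one_iff.1 h10
    omega
  rw [hqQ] at hns
  refine ⟨CylStat.mono hI.cyl isOpen_ball (fun x hx => ?_), hz', hr0, ?_, ?_⟩
  · rw [mem_ball, dist_eq_norm] at hx ⊢
    calc ‖x - z‖ = ‖(x - z') + (z' - z)‖ := by congr 1; abel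
      _ ≤ ‖x - z'‖ + ‖z' - z‖ := norm_add_le _ _
      _ < R := by linarith
  · filter_upwards [hI.int] with y hy hyr
    exact hy (hcylsub hz' (by linarith) hyr)
  · have h7 : ν.real (cylSet T z' r) - Q * om m * r ^ m
        = (ν.real (cylSet T z' r) / r ^ m - Q * om m) * r ^ m := by field_simp
    rw [h7, abs_mul, abs_of_pos hrm]
    gcongr

lemma IntCyl.weaken {Q : ℕ} {δ δ' : ℝ} (hI : IntCyl m Q T z R h δ ν P) (hδ : δ ≤ δ') :
    IntCyl m Q T z R h δ' ν P :=
  ⟨hI.cyl, hI.mem, hI.pos, hI.int, hI.mass.trans (by have := hI.pos; gcongr)⟩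

/-- **Persistence of the mass fraction.** -/
theorem nik (m Q : ℕ) (hm : 1 ≤ m) {η : ℝ} (hη : 0 < η) (hη1 : η ≤ om m / 4) :
    ∃ δ > 0, ∀ (T : Submodule ℝ E) (z : E) (R h : ℝ) (ν : Measure E) (P : E → E →L[ℝ] E),
      IntCyl m Q T z R h η ν P → exc T ν P z R ≤ δ * R ^ m →
      ∀ (z' : E) (r : ℝ), z' ∈ T → R / 64 ≤ r → ‖z' - z‖ + 2 * r ≤ R →
        IntCyl m Q T z' r h η ν P := by
  obtain ⟨δ, hδ, h⟩ := nik' (E := E) m Q hm hη hη1
  refine ⟨δ, hδ, fun T z R h' ν P hI => ?_⟩
  exact h T z R h' ν P (IntCyl.weaken hI (hη1.trans (by linarith [om_pos m])))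

end Vale.Agent.P214.TCH
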