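import Vale.Agent.P214.FV.Radial
import Vale.Agent.P214.Skel.Defs

/-!
# P214, block TCH: the virial identity on sharp balls

`virial_ball`: for `g` of class `C^1` with `g (ρ²) = 0`, the radial virial identity holds with the
sharp cut-off `1_{|x| < ρ}`, `ρ ≤ R`.
-/

open Set Filter Topology MeasureTheory Metric
open scoped RealInnerProductSpace

set_option linter.all false

namespace Vale.Agent.P214.TCH

open Vale.Agent.P214.FV Vale.Agent.P214.Skel

/-- the cut-off factor -/
noncomputable def cutf (a : ℝ) (n : ℕ) (s : ℝ) : ℝ :=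
  Real.smoothTransition (((n : ℝ) + 1) * (a - s) - 1)

lemma contDiff_cutf (a : ℝ) (n : ℕ) {k : ℕ∞} : ContDiff ℝ k (cutf a n) := by
  unfold cutf
  exact Real.smoothTransition.contDiff.comp (by fun_prop)

lemma cutf_nonneg (a : ℝ) (n : ℕ) (s : ℝ) : 0 ≤ cutf a n s := Real.smoothTransition.nonneg _

lemma cutf_le_one (a : ℝ) (n : ℕ) (s : ℝ) : cutf a n s ≤ 1 := Real.smoothTransition.le_one _

/-- derivative of the smooth transition is bounded -/
lemma exists_deriv_bound : ∃ C, 0 ≤ C ∧ ∀ x, |deriv Real.smoothTransition x| ≤ C ∧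
    (x < 0 → deriv Real.smoothTransition x = 0) ∧ (1 < x → deriv Real.smoothTransition x = 0) := by
  have hc : Continuous (deriv Real.smoothTransition) :=
    (Real.smoothTransition.contDiff (n := 1)).continuous_deriv (by norm_num)
  obtain ⟨C, hC⟩ := (isCompact_Icc (a := (0:ℝ)) (b := 1)).exists_bound_of_continuousOn hc.continuousOn
  have h0 : ∀ x : ℝ, x < 0 → deriv Real.smoothTransition x = 0 := by
    intro x hx
    have : Real.smoothTransition =ᶠ[𝓝 x] fun _ => (0:ℝ) := by
      filter_upwards [Iio_mem_nhds hx] with u hu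
      exact Real.smoothTransition.zero_of_nonpos (le_of_lt hu)
    rw [this.deriv_eq]; simp
  have h1 : ∀ x : ℝ, 1 < x → deriv Real.smoothTransition x = 0 := by
    intro x hx
    have : Real.smoothTransition =ᶠ[𝓝 x] fun _ => (1:ℝ) := by
      filter_upwards [Ioi_mem_nhds hx] with u hu
      exact Real.smoothTransition.one_of_one_le (le_of_lt hu)
    rw [this.deriv_eq]; simp
  refine ⟨max C 0, le_max_right _ _, fun x => ⟨?_, h0 x, h1 x⟩⟩
  by_cases hx0 : x < 0
  · rw [h0 x hx0]; simp
  · by_cases hx1 : 1 < x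
    · rw [h1 x hx1]; simp
    · exact (hC x ⟨not_lt.1 hx0, not_lt.1 hx1⟩).trans (le_max_left _ _)

lemma hasDerivAt_cutf (a : ℝ) (n : ℕ) (s : ℝ) :
    HasDerivAt (cutf a n)
      (deriv Real.smoothTransition (((n : ℝ) + 1) * (a - s) - 1) * (-((n : ℝ) + 1))) s := by
  have h1 : HasDerivAt (fun s : ℝ => ((n : ℝ) + 1) * (a - s) - 1) (-((n : ℝ) + 1)) s := by
    have := (((hasDerivAt_id s).const_sub a).const_mul ((n : ℝ) + 1)).sub_const 1
    simpa using this
  have h2 : HasDerivAt Real.smoothTransition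
      (deriv Real.smoothTransition (((n : ℝ) + 1) * (a - s) - 1))
      (((n : ℝ) + 1) * (a - s) - 1) :=
    ((Real.smoothTransition.contDiff (n := 1)).differentiable (by norm_num) _).hasDerivAt
  exact h2.comp s h1

variable {E : Type*} [NormedAddCommGroup E] [InnerProductSpace ℝ E] [FiniteDimensional ℝ E]
  [MeasurableSpace E] [BorelSpace E]
variable {m : ℕ} {T : Submodule ℝ E} {h : ℝ} {ν : Measure E} {P : E → E →L[ℝ] E} {z : E} {R : ℝ}

lemma measurableSet_cylSet (T : Submodule ℝ E) (z : E) (R : ℝ) : MeasurableSet (cylSet T z R) :=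
  (isOpen_ball.preimage T.starProjection.continuous).measurableSet

lemma isOpen_cylSet (T : Submodule ℝ E) (z : E) (R : ℝ) : IsOpen (cylSet T z R) :=
  isOpen_ball.preimage T.starProjection.continuous

omit [FiniteDimensional ℝ E] [MeasurableSpace E] [BorelSpace E] in
lemma mem_cylSet [FiniteDimensional ℝ E] {y : E} (hR : 0 < R) :
    y ∈ cylSet T z R ↔ ‖bas T z y‖ ^ 2 < R ^ 2 := by
  unfold cylSet bas
  rw [mem_setOf_eq, mem_ball, dist_eq_norm]
  constructor
  · intro h1; exact pow_lt_pow_left₀ h1 (norm_nonneg _) (by norm_num)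
  · intro h1; exact lt_of_pow_lt_pow_left₀ 2 hR.le h1

/-- bounds for the two basic pointwise quantities -/
lemma CylStat.pt (hC : CylStat m T (ball z R) h ν P) :
    ∀ᵐ y ∂ν, |tr (T.starProjection.comp (P y))| ≤ Module.finrank ℝ E ∧
      0 ≤ ⟪bas T z y, P y (bas T z y)⟫ ∧ ⟪bas T z y, P y (bas T z y)⟫ ≤ ‖bas T z y‖ ^ 2 := by
  filter_upwards [hC.proj] with y hy
  obtain ⟨S, hS, hP⟩ := hy
  rw [hP]
  refine ⟨?_, ?_, ?_⟩
  · refine (abs_tr_le _).trans ?_
    have h2 : ‖T.starProjection.comp S.starProjection‖ ≤ 1 := by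
      calc ‖T.starProjection.comp S.starProjection‖ ≤ ‖T.starProjection‖ * ‖S.starProjection‖ :=
            ContinuousLinearMap.opNorm_comp_le _ _
        _ ≤ 1 * 1 := by
            gcongr
            · exact T.starProjection_norm_le
            · exact S.starProjection_norm_le
        _ = 1 := by ring
    have h5 : (0:ℝ) ≤ Module.finrank ℝ E := by positivity
    nlinarith
  · rw [inner_star_self]; positivity
  · rw [inner_star_self]
    have := norm_star_le S (bas T z y)
    gcongr

/-- **Sharp radial virial identity.** -/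
theorem virial_ball (hC : CylStat m T (ball z R) h ν P) (hz : z ∈ T) {ρ : ℝ} (h0 : 0 < ρ)
    (hρ : ρ ≤ R) {g : ℝ → ℝ} (hg : ContDiff ℝ 1 g) (hg0 : g (ρ ^ 2) = 0) :
    ∫ y in cylSet T z ρ, (g (‖bas T z y‖ ^ 2) * tr (T.starProjection.comp (P y)) +
      2 * deriv g (‖bas T z y‖ ^ 2) * ⟪bas T z y, P y (bas T z y)⟫) ∂ν = 0 := by
  have := hC.fin
  have hdg : Continuous (deriv g) := hg.continuous_deriv (by norm_num)
  obtain ⟨CH, hCH0, hCH⟩ := exists_deriv_bound
  obtain ⟨L, hL⟩ := (isCompact_Icc (a := (0:ℝ)) (b := ρ ^ 2)).exists_bound_of_continuousOn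
    hdg.continuousOn
  have hL0 : 0 ≤ L := (norm_nonneg _).trans (hL 0 ⟨le_rfl, by positivity⟩)
  -- `|g s| ≤ L (ρ² - s)`
  have hgs : ∀ s, 0 ≤ s → s ≤ ρ ^ 2 → |g s| ≤ L * (ρ ^ 2 - s) := by
    intro s hs0 hs1
    have h1 := (convex_Icc s (ρ ^ 2)).norm_image_sub_le_of_norm_deriv_le (f := g)
      (fun x _ => hg.differentiable (by norm_num) x)
      (fun x hx => hL x ⟨hs0.trans hx.1, hx.2⟩) (left_mem_Icc.2 hs1) (right_mem_Icc.2 hs1)
    rw [hg0, zero_sub, norm_neg, Real.norm_eq_abs, Real.norm_eq_abs,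
      abs_of_nonneg (show 0 ≤ ρ ^ 2 - s by linarith)] at h1
    exact h1
  set f : ℕ → ℝ → ℝ := fun n s => g s * cutf (ρ ^ 2) n s with hf
  have hfc : ∀ n, ContDiff ℝ 1 (f n) := fun n => hg.mul (contDiff_cutf _ _ (k := 1))
  have hfd : ∀ (n : ℕ) (s : ℝ), deriv (f n) s = deriv g s * cutf (ρ ^ 2) n s +
      g s * (deriv Real.smoothTransition (((n : ℝ) + 1) * (ρ ^ 2 - s) - 1) * (-((n : ℝ) + 1))) := by
    intro n s
    exact ((hg.differentiable (by norm_num) s).hasDerivAt.mul (hasDerivAt_cutf _ _ _)).deriv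
  have hzero : ∀ (n : ℕ) (s : ℝ), ρ ^ 2 - 1 / ((n : ℝ) + 1) ≤ s → f n s = 0 := by
    intro n s hs
    have hn : (0:ℝ) < (n : ℝ) + 1 := by positivity
    have : cutf (ρ ^ 2) n s = 0 := by
      refine Real.smoothTransition.zero_of_nonpos ?_
      have h1 : ρ ^ 2 - s ≤ 1 / ((n : ℝ) + 1) := by linarith
      have h2 : ((n : ℝ) + 1) * (ρ ^ 2 - s) ≤ ((n : ℝ) + 1) * (1 / ((n : ℝ) + 1)) := by gcongr
      rw [mul_one_div_cancel hn.ne'] at h2
      linarith
    simp [hf, this]
  have hzero' : ∀ (n : ℕ) (s : ℝ), ρ ^ 2 ≤ s → deriv (f n) s = 0 := by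
    intro n s hs
    have hn : (0:ℝ) < (n : ℝ) + 1 := by positivity
    have h1 : f n =ᶠ[𝓝 s] fun _ => (0:ℝ) := by
      have : ρ ^ 2 - 1 / ((n : ℝ) + 1) < s := by
        have : 0 < 1 / ((n : ℝ) + 1) := by positivity
        linarith
      filter_upwards [Ioi_mem_nhds this] with u hu
      exact hzero n u (le_of_lt hu)
    rw [h1.deriv_eq]; simp
  -- the identity for each `n`
  have hid : ∀ n, ∫ y, (f n (‖bas T z y‖ ^ 2) * tr (T.starProjection.comp (P y)) +
      2 * deriv (f n) (‖bas T z y‖ ^ 2) * ⟪bas T z y, P y (bas T z y)⟫) ∂ν = 0 := by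
    intro n
    have hn : (0:ℝ) < (n : ℝ) + 1 := by positivity
    have hn' : (0:ℝ) < 1 / ((n : ℝ) + 1) := by positivity
    set Rn : ℝ := √(max (ρ ^ 2 - 1 / ((n : ℝ) + 1)) 0) with hRn
    have hRn2 : Rn ^ 2 = max (ρ ^ 2 - 1 / ((n : ℝ) + 1)) 0 := Real.sq_sqrt (le_max_right _ _)
    have hRn0 : 0 ≤ Rn := Real.sqrt_nonneg _
    have hRnlt : Rn < ρ := by
      refine lt_of_pow_lt_pow_left₀ 2 h0.le ?_
      rw [hRn2]
      refine max_lt (by linarith) (by positivity)
    refine hC.virial_rad hz (hfc n) (R := Rn) ?_ hRn0 ?_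
    · intro x _ hx
      rw [mem_ball, dist_eq_norm]; linarith
    · intro s hs
      rw [hRn2] at hs
      exact hzero n s ((le_max_left _ _).trans hs.le)
  -- pass to the limit
  have hlim : Tendsto (fun n => ∫ y, (f n (‖bas T z y‖ ^ 2) * tr (T.starProjection.comp (P y)) +
      2 * deriv (f n) (‖bas T z y‖ ^ 2) * ⟪bas T z y, P y (bas T z y)⟫) ∂ν) atTop
      (𝓝 (∫ y, (cylSet T z ρ).indicator (fun y =>
        (g (‖bas T z y‖ ^ 2) * tr (T.starProjection.comp (P y)) +
      2 * deriv g (‖bas T z y‖ ^ 2) * ⟪bas T z y, P y (bas T z y)⟫)) y ∂ν)) := by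
    have hbm : AEStronglyMeasurable (bas T z) ν :=
      (contDiff_bas (n := 0) T z).continuous.aestronglyMeasurable
    have htrm : AEStronglyMeasurable (fun y => tr (T.starProjection.comp (P y))) ν := by
      refine continuous_tr.comp_aestronglyMeasurable ?_
      have : Continuous fun p : E →L[ℝ] E => T.starProjection.comp p := by fun_prop
      exact this.comp_aestronglyMeasurable hC.meas
    have hinm : AEStronglyMeasurable (fun y => ⟪bas T z y, P y (bas T z y)⟫) ν :=
      hbm.inner (aesm_clm_apply hC.meas hbm)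
    refine tendsto_integral_of_dominated_convergence
      (fun _ => (L * ρ ^ 2) * Module.finrank ℝ E + 2 * (L + 2 * L * CH) * ρ ^ 2) ?_ ?_ ?_ ?_
    · intro n
      have h1 : Continuous fun y => f n (‖bas T z y‖ ^ 2) :=
        (hfc n).continuous.comp ((contDiff_bas (n := 0) T z).continuous.norm.pow 2)
      have h2 : Continuous fun y => deriv (f n) (‖bas T z y‖ ^ 2) :=
        ((hfc n).continuous_deriv (by norm_num)).comp
          ((contDiff_bas (n := 0) T z).continuous.norm.pow 2)
      exact (h1.aestronglyMeasurable.mul htrm).add ((h2.aestronglyMeasurable.const_mul 2).mul hinm)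
    · exact integrable_const _
    · intro n
      filter_upwards [CylStat.pt hC] with y hy
      obtain ⟨h1, h2, h3⟩ := hy
      set s := ‖bas T z y‖ ^ 2 with hs
      have hs0 : 0 ≤ s := by positivity
      by_cases hsr : ρ ^ 2 ≤ s
      · rw [hzero' n s hsr, hzero n s (by
          have : 0 < 1 / ((n : ℝ) + 1) := by positivity
          linarith)]
        simp only [zero_mul, mul_zero, add_zero, norm_zero]
        positivity
      · rw [not_le] at hsr
        have hg1 := hgs s hs0 hsr.le
        have hfb : |f n s| ≤ L * ρ ^ 2 := by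
          simp only [hf]
          rw [abs_mul, abs_of_nonneg (cutf_nonneg _ _ _)]
          have hq : 0 ≤ L * (ρ ^ 2 - s) := mul_nonneg hL0 (by linarith)
          calc |g s| * cutf (ρ ^ 2) n s ≤ (L * (ρ ^ 2 - s)) * 1 :=
                mul_le_mul hg1 (cutf_le_one _ _ _) (cutf_nonneg _ _ _) hq
            _ ≤ L * ρ ^ 2 := by rw [mul_one]; gcongr; linarith
        have hdb : |deriv (f n) s| ≤ L + 2 * L * CH := by
          rw [hfd]
          have ha : |deriv g s * cutf (ρ ^ 2) n s| ≤ L := by
            rw [abs_mul, abs_of_nonneg (cutf_nonneg _ _ _)]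
            have := hL s ⟨hs0, hsr.le⟩
            rw [Real.norm_eq_abs] at this
            calc |deriv g s| * cutf (ρ ^ 2) n s ≤ L * 1 :=
                  mul_le_mul this (cutf_le_one _ _ _) (cutf_nonneg _ _ _) hL0
              _ = L := mul_one L
          have hb : |g s * (deriv Real.smoothTransition (((n : ℝ) + 1) * (ρ ^ 2 - s) - 1)
              * (-((n : ℝ) + 1)))| ≤ 2 * L * CH := by
            have hn : (0:ℝ) < (n : ℝ) + 1 := by positivity
            by_cases hu : 1 < ((n : ℝ) + 1) * (ρ ^ 2 - s) - 1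
            · rw [(hCH _).2.2 hu]
              simp only [zero_mul, mul_zero, abs_zero]
              positivity
            · rw [not_lt] at hu
              have h5 : ((n : ℝ) + 1) * (ρ ^ 2 - s) ≤ 2 := by linarith
              have h6 := (hCH (((n : ℝ) + 1) * (ρ ^ 2 - s) - 1)).1
              rw [abs_mul, abs_mul, abs_neg, abs_of_pos hn]
              calc |g s| * (|deriv Real.smoothTransition (((n : ℝ) + 1) * (ρ ^ 2 - s) - 1)|
                    * ((n : ℝ) + 1))
                  ≤ (L * (ρ ^ 2 - s)) * (CH * ((n : ℝ) + 1)) := by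
                    gcongr
                _ = L * CH * (((n : ℝ) + 1) * (ρ ^ 2 - s)) := by ring
                _ ≤ L * CH * 2 := by gcongr
                _ = 2 * L * CH := by ring
          exact (abs_add_le _ _).trans (add_le_add ha hb)
        calc ‖f n s * tr (T.starProjection.comp (P y)) + 2 * deriv (f n) s
              * ⟪bas T z y, P y (bas T z y)⟫‖
            ≤ ‖f n s * tr (T.starProjection.comp (P y))‖ + ‖2 * deriv (f n) s
              * ⟪bas T z y, P y (bas T z y)⟫‖ := norm_add_le _ _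
          _ ≤ (L * ρ ^ 2) * Module.finrank ℝ E + 2 * (L + 2 * L * CH) * ρ ^ 2 := by
            refine add_le_add ?_ ?_
            · rw [norm_mul, Real.norm_eq_abs, Real.norm_eq_abs]
              gcongr
            · rw [norm_mul, norm_mul, Real.norm_eq_abs, Real.norm_eq_abs, Real.norm_eq_abs,
                abs_of_nonneg h2, abs_of_pos (by norm_num : (0:ℝ) < 2)]
              have h7 : ⟪bas T z y, P y (bas T z y)⟫ ≤ ρ ^ 2 := h3.trans hsr.le
              gcongr
    · refine Eventually.of_forall fun y => ?_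
      set s := ‖bas T z y‖ ^ 2 with hs
      have hs0 : 0 ≤ s := by positivity
      by_cases hsr : s < ρ ^ 2
      · have hmem : y ∈ cylSet T z ρ := (mem_cylSet h0).2 hsr
        rw [indicator_of_mem hmem]
        have hev : ∀ᶠ n : ℕ in atTop, f n s = g s ∧ deriv (f n) s = deriv g s := by
          have h1 : Tendsto (fun n : ℕ => ((n : ℝ) + 1) * (ρ ^ 2 - s) - 1) atTop atTop := by
            have h2 : Tendsto (fun n : ℕ => (n : ℝ) + 1) atTop atTop :=
              tendsto_atTop_add_const_right _ _ tendsto_natCast_atTop_atTop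
            have h3 := h2.atTop_mul_const (show 0 < ρ ^ 2 - s by linarith)
            exact tendsto_atTop_add_const_right _ (-1) h3
          filter_upwards [h1.eventually_gt_atTop 1] with n hn
          have h4 : cutf (ρ ^ 2) n s = 1 := Real.smoothTransition.one_of_one_le hn.le
          refine ⟨by simp [hf, h4], ?_⟩
          rw [hfd, h4, (hCH _).2.2 hn]; ring
        refine tendsto_const_nhds.congr' ?_
        filter_upwards [hev] with n hn
        rw [hn.1, hn.2]
      · have hmem : y ∉ cylSet T z ρ := fun hmem => hsr ((mem_cylSet h0).1 hmem)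
        rw [indicator_of_notMem hmem]
        refine tendsto_const_nhds.congr' ?_
        rw [not_lt] at hsr
        filter_upwards with n
        rw [hzero' n s hsr, hzero n s (by
          have : 0 < 1 / ((n : ℝ) + 1) := by positivity
          linarith)]
        ring
  have h1 : (fun n => ∫ y, (f n (‖bas T z y‖ ^ 2) * tr (T.starProjection.comp (P y)) +
      2 * deriv (f n) (‖bas T z y‖ ^ 2) * ⟪bas T z y, P y (bas T z y)⟫) ∂ν) = fun _ => 0 :=
    funext hid
  rw [h1] at hlim
  have h2 := tendsto_nhds_unique hlim tendsto_const_nhds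
  rw [integral_indicator (measurableSet_cylSet T z ρ)] at h2
  exact h2

end Vale.Agent.P214.TCH
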