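import Vale.Agent.P214.TCH.Plane
import Vale.Agent.P214.MU.Theta

/-!
# P214, block TCH: the value of the constant `cg`

`cg m = cm m * om m`, `cm m = 8 / ((m+2)(m+4))`.
-/

open Set Filter Topology MeasureTheory Metric
open scoped RealInnerProductSpace

set_option linter.all false

namespace Vale.Agent.P214.TCH

lemma cphi_prof (m : ℕ) : MU.cphi m prof = cm m := by
  unfold MU.cphi cm
  have h1 : ∫ s in Ioc (0:ℝ) 1, (-deriv prof s) * (√s) ^ m
      = ∫ s in Ioc (0:ℝ) 1, (2 * s ^ ((m : ℝ) / 2) - 2 * s ^ ((m : ℝ) / 2 + 1)) := by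
    refine setIntegral_congr_fun measurableSet_Ioc fun s hs => ?_
    rw [(hasDerivAt_prof s).deriv, dprof, max_eq_left (by linarith [hs.2])]
    have h2 : (√s) ^ m = s ^ ((m : ℝ) / 2) := by
      rw [Real.sqrt_eq_rpow, ← Real.rpow_natCast, ← Real.rpow_mul hs.1.le]
      congr 1; ring
    have h3 : s ^ ((m : ℝ) / 2 + 1) = s ^ ((m : ℝ) / 2) * s := by
      rw [Real.rpow_add hs.1, Real.rpow_one]
    rw [h2, h3]; ring
  rw [h1, ← intervalIntegral.integral_of_le zero_le_one]
  have hm : (0:ℝ) ≤ m := Nat.cast_nonneg m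
  rw [intervalIntegral.integral_sub, intervalIntegral.integral_const_mul,
    intervalIntegral.integral_const_mul, integral_rpow, integral_rpow]
  · have e1 : (m : ℝ) / 2 + 1 ≠ 0 := by positivity
    have e2 : (m : ℝ) / 2 + 1 + 1 ≠ 0 := by positivity
    rw [Real.one_rpow, Real.one_rpow, Real.zero_rpow e1, Real.zero_rpow e2]
    field_simp
    ring
  · left; linarith
  · left; linarith
  · exact (intervalIntegral.intervalIntegrable_rpow (Or.inl (by positivity))).const_mul 2
  · exact (intervalIntegral.intervalIntegrable_rpow (Or.inl (by positivity))).const_mul 2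

lemma cg_eq (m : ℕ) : cg m = cm m * Skel.om m := by
  rw [MU.cg_eq, cphi_prof, mul_comm]
  rfl

lemma om_pos (m : ℕ) : 0 < Skel.om m := MU.om_pos m

end Vale.Agent.P214.TCH
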