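import Vale.Agent.P214.TCH.Path
import Vale.Agent.P214.SUB.A

/-!
# P214, block TCH: change of the reference plane

If `T, T₁` are two `m`-planes and `z ∈ T ∩ T₁`, a stationary measure in the cylinder over the ball
`ball z R` of `T` in a slab of height `h` is stationary in the cylinder over the ball `ball z R₁` of
`T₁`, after restriction to the old cylinder, as soon as `R₁ + σ (R + h) < R`,
`σ = ‖p₁ - p‖`.
-/

open Set Filter Topology MeasureTheory Metric
open scoped RealInnerProductSpace

set_option linter.all false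

namespace Vale.Agent.P214.TCH

open Vale.Agent.P214.FV Vale.Agent.P214.Skel Vale.Agent.P214.ODE Vale.Agent.P214.QP

variable {E : Type*} [NormedAddCommGroup E] [InnerProductSpace ℝ E] [FiniteDimensional ℝ E]
  [MeasurableSpace E] [BorelSpace E]
variable {m : ℕ} {T T₁ : Submodule ℝ E} {h : ℝ} {ν : Measure E} {P : E → E →L[ℝ] E} {z : E} {R : ℝ}

/-- the two projections differ by at most `σ (R + h)` on the cylinder -/
lemma norm_star_sub_le {σ : ℝ} (hσ : ‖T₁.starProjection - T.starProjection‖ ≤ σ) (hz : z ∈ T)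
    (hz1 : z ∈ T₁) {y : E} (hy : ‖T.starProjection y - z‖ ≤ R)
    (hh : ‖y - T.starProjection y‖ ≤ h) :
    ‖T₁.starProjection y - T.starProjection y‖ ≤ σ * (R + h) := by
  have e : T₁.starProjection y - T.starProjection y
      = (T₁.starProjection - T.starProjection) (y - z) := by
    rw [ContinuousLinearMap.sub_apply, map_sub, map_sub,
      Submodule.starProjection_eq_self_iff.2 hz, Submodule.starProjection_eq_self_iff.2 hz1]
    abel
  have h1 : ‖y - z‖ ≤ R + h := by
    calc ‖y - z‖ = ‖(T.starProjection y - z) + (y - T.starProjection y)‖ := by congr 1; abel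
      _ ≤ ‖T.starProjection y - z‖ + ‖y - T.starProjection y‖ := norm_add_le _ _
      _ ≤ R + h := add_le_add hy hh
  rw [e]
  have h0 : 0 ≤ σ := (norm_nonneg _).trans hσ
  calc _ ≤ ‖T₁.starProjection - T.starProjection‖ * ‖y - z‖ :=
        ContinuousLinearMap.le_opNorm _ _
    _ ≤ σ * (R + h) := by gcongr

/-- **Change of plane, stationarity.** -/
theorem cylStat_change (hC : CylStat m T (ball z R) h ν P) (hz : z ∈ T) (hz1 : z ∈ T₁)
    (hT1 : Module.finrank ℝ T₁ = m) {σ R₁ : ℝ}
    (hσ : ‖T₁.starProjection - T.starProjection‖ ≤ σ) (hR1 : R₁ + σ * (R + h) ≤ R) :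
    CylStat m T₁ (ball z R₁) (h + σ * (R + h)) (ν.restrict (cylSet T z R)) P := by
  haveI := hC.fin
  have hms := measurableSet_cylSet T z R
  refine ⟨inferInstance, hC.meas.restrict, ae_restrict_of_ae hC.proj, hT1, isOpen_ball, ?_, ?_⟩
  · rw [ae_restrict_iff' hms]
    filter_upwards [hC.slab] with y hy hyc _
    have h1 : T.starProjection y ∈ ball z R := hyc
    have h2 := hy h1
    rw [mem_ball, dist_eq_norm] at h1
    have h3 := norm_star_sub_le hσ hz hz1 h1.le h2
    calc ‖y - T₁.starProjection y‖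
        = ‖(y - T.starProjection y) + -(T₁.starProjection y - T.starProjection y)‖ := by
          congr 1; abel
      _ ≤ ‖y - T.starProjection y‖ + ‖T₁.starProjection y - T.starProjection y‖ := by
          refine (norm_add_le _ _).trans ?_; rw [norm_neg]
      _ ≤ h + σ * (R + h) := add_le_add h2 h3
  · rintro X hX ⟨K, hK, hKG, hX0⟩
    set s := σ * (R + h) with hs
    -- `K` lies in a smaller closed ball
    obtain ⟨R2, hR2, hKR2⟩ : ∃ R2, R2 < R₁ ∧ ∀ x ∈ K, ‖x - z‖ ≤ R2 := by
      rcases K.eq_empty_or_nonempty with hKe | hKn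
      · exact ⟨R₁ - 1, by linarith, by simp [hKe]⟩
      · have hc : ContinuousOn (fun x : E => ‖x - z‖) K :=
          (continuous_id.sub continuous_const).norm.continuousOn
        obtain ⟨x0, hx0, hmax⟩ := hK.exists_isMaxOn hKn hc
        refine ⟨‖x0 - z‖, ?_, fun x hx => hmax hx⟩
        have := hKG hx0
        rwa [mem_ball, dist_eq_norm] at this
    rcases le_or_gt R 0 with hR0 | hR0
    · have : cylSet T z R = ∅ := by
        unfold cylSet
        rw [ball_eq_empty.2 hR0]; simp
      rw [this, Measure.restrict_empty, integral_zero_measure]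
    have haR : R2 + s < R := by linarith
    set rI : ℝ := max (R2 + s + (R - (R2 + s)) / 3) (R / 3) with hrI
    set rO : ℝ := max (R2 + s + 2 * (R - (R2 + s)) / 3) (2 * R / 3) with hrO
    have hrI0 : 0 < rI := lt_of_lt_of_le (by positivity) (le_max_right _ _)
    have hIO : rI < rO := max_lt_max (by linarith) (by linarith)
    have hOR : rO < R := max_lt (by linarith) (by linarith)
    have haI : R2 + s < rI := lt_of_lt_of_le (by linarith) (le_max_left _ _)
    let b : ContDiffBump z := ⟨rI, rO, hrI0, hIO⟩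
    set χ : E → ℝ := fun y => b (T.starProjection y) with hχ
    have hχc : ContDiff ℝ 1 χ := (b.contDiff (n := 1)).comp T.starProjection.contDiff
    have hχ1 : ∀ y, ‖T.starProjection y - z‖ < rI → χ y = 1 := by
      intro y hy
      exact b.one_of_mem_closedBall (by rw [mem_closedBall, dist_eq_norm]; exact hy.le)
    have hχ0 : ∀ y, rO ≤ ‖T.starProjection y - z‖ → χ y = 0 := by
      intro y hy
      exact b.zero_of_le_dist (by rw [dist_eq_norm]; exact hy)
    have hY := hC.stat (fun y => χ y • X y) (hχc.smul hX)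
      ⟨closedBall z rO, isCompact_closedBall z rO, closedBall_subset_ball hOR, fun y hy => by
        rw [mem_closedBall, dist_eq_norm, not_le] at hy
        simp only
        rw [hχ0 y hy.le, zero_smul]⟩
    rw [← hY, ← integral_indicator hms]
    refine integral_congr_ae ?_
    have hcp : Continuous fun y : E => ‖T.starProjection y - z‖ :=
      (T.starProjection.continuous.sub continuous_const).norm
    filter_upwards [hC.slab] with y hy
    by_cases hyc : y ∈ cylSet T z R
    · rw [indicator_of_mem hyc]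
      have hyb : T.starProjection y ∈ ball z R := hyc
      have hh := hy hyb
      rw [mem_ball, dist_eq_norm] at hyb
      rcases lt_or_ge ‖T.starProjection y - z‖ rI with h1 | h1
      · have h2 : (fun y => χ y • X y) =ᶠ[𝓝 y] X := by
          filter_upwards [(isOpen_lt hcp continuous_const).mem_nhds h1] with w hw
          rw [hχ1 w hw, one_smul]
        rw [h2.fderiv_eq]
      · have h3 : T₁.starProjection y ∉ K := by
          intro h4
          have h5 := hKR2 _ h4
          have h6 := norm_star_sub_le hσ hz hz1 hyb.le hh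
          have h7 : ‖T.starProjection y - z‖ ≤ R2 + s := by
            calc ‖T.starProjection y - z‖
                = ‖(T₁.starProjection y - z) + -(T₁.starProjection y - T.starProjection y)‖ := by
                  congr 1; abel
              _ ≤ ‖T₁.starProjection y - z‖ + ‖T₁.starProjection y - T.starProjection y‖ := by
                  refine (norm_add_le _ _).trans ?_; rw [norm_neg]
              _ ≤ R2 + s := add_le_add h5 h6
          linarith
        have hopen : IsOpen {w : E | T₁.starProjection w ∉ K} :=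
          hK.isClosed.isOpen_compl.preimage T₁.starProjection.continuous
        have h4 : X =ᶠ[𝓝 y] fun _ => (0 : E) := by
          filter_upwards [hopen.mem_nhds h3] with w hw
          exact hX0 w hw
        have h5 : (fun y => χ y • X y) =ᶠ[𝓝 y] fun _ => (0 : E) := by
          filter_upwards [h4] with w hw
          rw [hw, smul_zero]
        rw [h4.fderiv_eq, h5.fderiv_eq]
    · rw [indicator_of_notMem hyc]
      have h1 : R ≤ ‖T.starProjection y - z‖ := by
        by_contra hcon
        exact hyc (show T.starProjection y ∈ ball z R by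
          rw [mem_ball, dist_eq_norm]; exact not_le.1 hcon)
      have h2 : (fun y => χ y • X y) =ᶠ[𝓝 y] fun _ => (0 : E) := by
        filter_upwards [(isOpen_lt continuous_const hcp).mem_nhds (hOR.trans_le h1)] with w hw
        rw [hχ0 w (le_of_lt hw), zero_smul]
      rw [h2.fderiv_eq]
      simp [tr_zero]

/-- **Change of plane, pointwise tilt.** -/
lemma tilt_change {S : Submodule ℝ E} (hS : Module.finrank ℝ S = Module.finrank ℝ T)
    (hT1 : Module.finrank ℝ T₁ = Module.finrank ℝ T) {σ : ℝ}
    (hσ : ‖T₁.starProjection - T.starProjection‖ ≤ σ) :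
    FV.tilt T₁ S.starProjection
      ≤ 2 * FV.tilt T S.starProjection + Module.finrank ℝ E * σ ^ 2 := by
  have h1 := hs_sub S T₁ (hS.trans hT1.symm)
  have h2 := hs_sub S T hS
  have h3 : hs (S.starProjection - T₁.starProjection)
      ≤ 2 * hs (S.starProjection - T.starProjection)
        + 2 * hs (T₁.starProjection - T.starProjection) := by
    unfold hs
    rw [Finset.mul_sum, Finset.mul_sum, ← Finset.sum_add_distrib]
    refine Finset.sum_le_sum fun k _ => ?_
    set b := stdOrthonormalBasis ℝ E k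
    have e : (S.starProjection - T₁.starProjection) b
        = (S.starProjection - T.starProjection) b - (T₁.starProjection - T.starProjection) b := by
      simp only [ContinuousLinearMap.sub_apply]; abel
    rw [e]
    have h4 := norm_sub_le ((S.starProjection - T.starProjection) b)
      ((T₁.starProjection - T.starProjection) b)
    nlinarith [sq_nonneg (‖(S.starProjection - T.starProjection) b‖
      - ‖(T₁.starProjection - T.starProjection) b‖), norm_nonneg
      ((S.starProjection - T.starProjection) b - (T₁.starProjection - T.starProjection) b)]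
  have h4 : hs (T₁.starProjection - T.starProjection) ≤ Module.finrank ℝ E * σ ^ 2 := by
    unfold hs
    have h5 : ∀ k, ‖(T₁.starProjection - T.starProjection) (stdOrthonormalBasis ℝ E k)‖ ^ 2
        ≤ σ ^ 2 := by
      intro k
      have hb1 : ‖stdOrthonormalBasis ℝ E k‖ = 1 := (stdOrthonormalBasis ℝ E).orthonormal.1 k
      have h6 := (T₁.starProjection - T.starProjection).le_opNorm (stdOrthonormalBasis ℝ E k)
      rw [hb1, mul_one] at h6
      exact pow_le_pow_left₀ (norm_nonneg _) (h6.trans hσ) 2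
    calc _ ≤ ∑ _k : Fin (Module.finrank ℝ E), σ ^ 2 := Finset.sum_le_sum fun k _ => h5 k
      _ = _ := by simp
  nlinarith

/-- **Change of plane, excess.** -/
theorem exc_change (hC : CylStat m T (ball z R) h ν P) (hz : z ∈ T)
    (hT1 : Module.finrank ℝ T₁ = m) {σ : ℝ} (hR : 0 < R)
    (hσ : ‖T₁.starProjection - T.starProjection‖ ≤ σ) (R₁ : ℝ) :
    exc T₁ (ν.restrict (cylSet T z R)) P z R₁
      ≤ 2 * exc T ν P z R + Module.finrank ℝ E * σ ^ 2 * ν.real (cylSet T z R) := by
  haveI := hC.fin
  have hms := measurableSet_cylSet T z R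
  have hms1 := measurableSet_cylSet T₁ z R₁
  have hi1 : Integrable (fun y => FV.tilt T₁ (P y)) ν := by
    have h1 : Plane m ν P := CylStat.plane hC
    refine Integrable.mono' (integrable_const (2 * (Module.finrank ℝ E : ℝ))) ?_ ?_
    · exact (aesm_tilt (T := T₁) hC.meas).congr (Eventually.of_forall fun y => otilt_eq T₁ P y)
    · filter_upwards [h1.abs_tilt_le (T := T₁)] with y hy
      rw [otilt_eq] at hy
      simpa using hy
  have hi : Integrable (fun y => FV.tilt T (P y)) ν :=
    (integrable_tilt hC).congr (Eventually.of_forall fun y => otilt_eq T P y)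
  have h1 : exc T₁ (ν.restrict (cylSet T z R)) P z R₁
      ≤ ∫ y in cylSet T z R, FV.tilt T₁ (P y) ∂ν := by
    unfold exc
    refine setIntegral_le_integral hi1.restrict ?_
    refine ae_restrict_of_ae ?_
    filter_upwards [hC.proj] with y hy
    obtain ⟨S, -, hP⟩ := hy
    simp only [Pi.zero_apply]
    rw [hP]; exact FV.tilt_nonneg S T₁
  refine h1.trans ?_
  have h2 : ∫ y in cylSet T z R, FV.tilt T₁ (P y) ∂ν
      ≤ ∫ y in cylSet T z R, (2 * FV.tilt T (P y) + Module.finrank ℝ E * σ ^ 2) ∂ν := by
    refine integral_mono_ae hi1.restrict ((hi.const_mul 2).add (integrable_const _)).restrict ?_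
    refine ae_restrict_of_ae ?_
    filter_upwards [hC.proj] with y hy
    obtain ⟨S, hS, hP⟩ := hy
    rw [hP]
    exact tilt_change (hS.trans hC.dimT.symm) (hT1.trans hC.dimT.symm) hσ
  refine h2.trans (le_of_eq ?_)
  rw [integral_add (hi.const_mul 2).restrict (integrable_const _), integral_const_mul,
    setIntegral_const, smul_eq_mul]
  unfold exc
  ring

lemma cylSet_mono {r r' : ℝ} (h : r ≤ r') : cylSet T z r ⊆ cylSet T z r' := by
  intro y hy
  have : T.starProjection y ∈ ball z r := hy
  exact ball_subset_ball h this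

lemma real_mono_ae {A B : Set E} (hB : ν B ≠ ⊤) (h : ∀ᵐ y ∂ν, y ∈ A → y ∈ B) :
    ν.real A ≤ ν.real B :=
  ENNReal.toReal_mono hB (measure_mono_ae h)

/-- **Change of plane, masses.** -/
lemma mass_change (hC : CylStat m T (ball z R) h ν P) (hz : z ∈ T) (hz1 : z ∈ T₁) {σ R₁ : ℝ}
    (hσ : ‖T₁.starProjection - T.starProjection‖ ≤ σ) (hs0 : 0 ≤ σ * (R + h))
    (hR1 : R₁ + σ * (R + h) ≤ R) :
    ν.real (cylSet T z (R₁ - σ * (R + h))) ≤ (ν.restrict (cylSet T z R)).real (cylSet T₁ z R₁) ∧
    (ν.restrict (cylSet T z R)).real (cylSet T₁ z R₁) ≤ ν.real (cylSet T z (R₁ + σ * (R + h))) := by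
  haveI := hC.fin
  have h1 : (ν.restrict (cylSet T z R)).real (cylSet T₁ z R₁)
      = ν.real (cylSet T₁ z R₁ ∩ cylSet T z R) := by
    rw [measureReal_restrict_apply (measurableSet_cylSet T₁ z R₁)]
  rw [h1]
  constructor
  · refine real_mono_ae (measure_ne_top _ _) ?_
    filter_upwards [hC.slab] with y hy hyc
    by_cases hyR : y ∈ cylSet T z R
    · refine ⟨?_, hyR⟩
      have hyb : T.starProjection y ∈ ball z R := hyR
      have hh := hy hyb
      rw [mem_ball, dist_eq_norm] at hyb
      have h2 := norm_star_sub_le hσ hz hz1 hyb.le hh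
      have hyc' : T.starProjection y ∈ ball z (R₁ - σ * (R + h)) := hyc
      rw [mem_ball, dist_eq_norm] at hyc'
      show T₁.starProjection y ∈ ball z R₁
      rw [mem_ball, dist_eq_norm]
      calc ‖T₁.starProjection y - z‖
          = ‖(T.starProjection y - z) + (T₁.starProjection y - T.starProjection y)‖ := by
            congr 1; abel
        _ ≤ ‖T.starProjection y - z‖ + ‖T₁.starProjection y - T.starProjection y‖ :=
            norm_add_le _ _
        _ < R₁ := by linarith
    · exfalso
      have hyc' : T.starProjection y ∈ ball z (R₁ - σ * (R + h)) := hyc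
      rw [mem_ball, dist_eq_norm] at hyc'
      have h3 : R ≤ ‖T.starProjection y - z‖ := by
        by_contra hcon
        exact hyR (show T.starProjection y ∈ ball z R by
          rw [mem_ball, dist_eq_norm]; exact not_le.1 hcon)
      linarith
  · refine real_mono_ae (measure_ne_top _ _) ?_
    filter_upwards [hC.slab] with y hy hyc
    obtain ⟨hy1, hyR⟩ := hyc
    have hyb : T.starProjection y ∈ ball z R := hyR
    have hh := hy hyb
    rw [mem_ball, dist_eq_norm] at hyb
    have h2 := norm_star_sub_le hσ hz hz1 hyb.le hh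
    have hy1' : T₁.starProjection y ∈ ball z R₁ := hy1
    rw [mem_ball, dist_eq_norm] at hy1'
    show T.starProjection y ∈ ball z (R₁ + σ * (R + h))
    rw [mem_ball, dist_eq_norm]
    calc ‖T.starProjection y - z‖
        = ‖(T₁.starProjection y - z) + -(T₁.starProjection y - T.starProjection y)‖ := by
          congr 1; abel
      _ ≤ ‖T₁.starProjection y - z‖ + ‖T₁.starProjection y - T.starProjection y‖ := by
          refine (norm_add_le _ _).trans ?_; rw [norm_neg]
      _ < R₁ + σ * (R + h) := by linarith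

lemma pow_sub_le (m : ℕ) {x y : ℝ} (hy : 0 < y) (hx : 0 ≤ x) (hxy : x ≤ y) :
    y ^ m - x ^ m ≤ m * (y - x) / y * y ^ m := by
  have h1 : -2 ≤ (x - y) / y := by
    rw [le_div_iff₀ hy]; linarith
  have h2 := one_add_mul_le_pow h1 m
  have h3 : 1 + (x - y) / y = x / y := by field_simp; ring
  rw [h3, div_pow] at h2
  have h4 : 0 < y ^ m := by positivity
  rw [le_div_iff₀ h4] at h2
  have h5 : (1 + m * ((x - y) / y)) * y ^ m = y ^ m - m * (y - x) / y * y ^ m := by ring
  linarith

lemma om_nonneg (m : ℕ) : 0 ≤ om m := ENNReal.toReal_nonneg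

/-- **Smaller balls for integral cylinders**, any centre. -/
theorem intCyl_sub {Q : ℕ} {δ : ℝ} (hI : IntCyl m Q T z R h δ ν P) (hm : 1 ≤ m) {z' : E}
    (hz' : z' ∈ T) {r δ₁ : ℝ} (hr : 0 < r) (hsub : ‖z' - z‖ + r ≤ R)
    (hδ : δ + 24 * R / (cm m * r ^ (m + 1)) * exc T ν P z R ≤ δ₁) :
    IntCyl m Q T z' r h δ₁ ν P := by
  have hR := hI.pos
  have hball : ball z' r ⊆ ball z R := by
    intro x hx
    rw [mem_ball, dist_eq_norm] at hx ⊢
    calc ‖x - z‖ = ‖(x - z') + (z' - z)‖ := by congr 1; abel
      _ ≤ ‖x - z'‖ + ‖z' - z‖ := norm_add_le _ _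
      _ < R := by linarith
  refine ⟨CylStat.mono hI.cyl isOpen_ball hball, hz', hr, ?_, ?_⟩
  · filter_upwards [hI.int] with y hy hyr
    exact hy (hball hyr)
  · have h3 := mass_sub hI.cyl hI.mem hm hz' hr hsub
    have h4 : |ν.real (cylSet T z R) / R ^ m - Q * om m| ≤ δ := by
      have h5 := hI.mass
      have h6 : ν.real (cylSet T z R) / R ^ m - Q * om m
          = (ν.real (cylSet T z R) - Q * om m * R ^ m) / R ^ m := by field_simp
      rw [h6, abs_div, abs_of_pos (by positivity : 0 < R ^ m), div_le_iff₀ (by positivity)]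
      exact h5
    have h6 : |ν.real (cylSet T z' r) / r ^ m - Q * om m| ≤ δ₁ := by
      calc |ν.real (cylSet T z' r) / r ^ m - Q * om m|
          = |(ν.real (cylSet T z' r) / r ^ m - ν.real (cylSet T z R) / R ^ m)
            + (ν.real (cylSet T z R) / R ^ m - Q * om m)| := by congr 1; ring
        _ ≤ |ν.real (cylSet T z' r) / r ^ m - ν.real (cylSet T z R) / R ^ m|
            + |ν.real (cylSet T z R) / R ^ m - Q * om m| := abs_add_le _ _
        _ ≤ δ₁ := by linarith
    have h7 : ν.real (cylSet T z' r) - Q * om m * r ^ m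
        = (ν.real (cylSet T z' r) / r ^ m - Q * om m) * r ^ m := by field_simp
    rw [h7, abs_mul, abs_of_pos (by positivity : 0 < r ^ m)]
    gcongr

/-- **Change of plane for integral cylinders.** -/
theorem intCyl_change {Q : ℕ} {δ : ℝ} (hI : IntCyl m Q T z R h δ ν P) (hm : 1 ≤ m) (hz1 : z ∈ T₁)
    (hT1 : Module.finrank ℝ T₁ = m) {σ R₁ δ₁ : ℝ} (hR10 : 0 < R₁) (hh : 0 ≤ h)
    (hσ : ‖T₁.starProjection - T.starProjection‖ ≤ σ) (hs : σ * (R + h) ≤ R₁ / 2)
    (hR1 : R₁ + σ * (R + h) ≤ R)
    (hδ : 2 ^ m * (δ + 24 * R / (cm m * (R₁ / 2) ^ (m + 1)) * exc T ν P z R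
      + Q * om m * m * (σ * (R + h)) / R₁) ≤ δ₁) :
    IntCyl m Q T₁ z R₁ (h + σ * (R + h)) δ₁ (ν.restrict (cylSet T z R)) P := by
  haveI := hI.cyl.fin
  have hσ0 : 0 ≤ σ := (norm_nonneg _).trans hσ
  have hR := hI.pos
  have hs0 : 0 ≤ σ * (R + h) := by positivity
  refine ⟨cylStat_change hI.cyl hI.mem hz1 hT1 hσ hR1, hz1, hR10, ?_, ?_⟩
  · rw [ae_restrict_iff' (measurableSet_cylSet T z R)]
    filter_upwards [hI.int] with y hy hyR _
    obtain ⟨q, hq, S, hP, hS⟩ := hy hyR
    exact ⟨q, hq, S, hP, SUB.tangent_local (measurableSet_cylSet T z R)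
      ((isOpen_cylSet T z R).mem_nhds hyR) hS⟩
  · obtain ⟨hlo, hup⟩ := mass_change hI.cyl hI.mem hz1 hσ hs0 hR1
    set s := σ * (R + h) with hsdef
    set M := (ν.restrict (cylSet T z R)).real (cylSet T₁ z R₁)
    have hcm := cm_pos m
    have hE0 : 0 ≤ exc T ν P z R := by
      rw [exc_eq hI.mem hR]; exact Dex_nonneg hI.cyl R
    have hOm : 0 ≤ Q * om m := mul_nonneg (Nat.cast_nonneg _) (om_nonneg m)
    set D := δ + 24 * R / (cm m * (R₁ / 2) ^ (m + 1)) * exc T ν P z R with hD
    have hone : ∀ ρ, R₁ / 2 ≤ ρ → ρ ≤ R → |ν.real (cylSet T z ρ) - Q * om m * ρ ^ m|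
        ≤ D * ρ ^ m := by
      intro ρ h1 h2
      have hρ : 0 < ρ := by linarith
      have h3 := mass_sub hI.cyl hI.mem hm hI.mem (r := ρ) hρ (by simpa using h2)
      have h4 : |ν.real (cylSet T z R) / R ^ m - Q * om m| ≤ δ := by
        have h5 := hI.mass
        have h6 : ν.real (cylSet T z R) / R ^ m - Q * om m
            = (ν.real (cylSet T z R) - Q * om m * R ^ m) / R ^ m := by field_simp
        rw [h6, abs_div, abs_of_pos (by positivity : 0 < R ^ m), div_le_iff₀ (by positivity)]
        exact h5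
      have h5 : 24 * R / (cm m * ρ ^ (m + 1)) * exc T ν P z R
          ≤ 24 * R / (cm m * (R₁ / 2) ^ (m + 1)) * exc T ν P z R := by gcongr
      have h6 : |ν.real (cylSet T z ρ) / ρ ^ m - Q * om m| ≤ D := by
        calc |ν.real (cylSet T z ρ) / ρ ^ m - Q * om m|
            = |(ν.real (cylSet T z ρ) / ρ ^ m - ν.real (cylSet T z R) / R ^ m)
              + (ν.real (cylSet T z R) / R ^ m - Q * om m)| := by congr 1; ring
          _ ≤ |ν.real (cylSet T z ρ) / ρ ^ m - ν.real (cylSet T z R) / R ^ m|
              + |ν.real (cylSet T z R) / R ^ m - Q * om m| := abs_add_le _ _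
          _ ≤ D := by rw [hD]; linarith
      have h7 : ν.real (cylSet T z ρ) - Q * om m * ρ ^ m
          = (ν.real (cylSet T z ρ) / ρ ^ m - Q * om m) * ρ ^ m := by field_simp
      rw [h7, abs_mul, abs_of_pos (by positivity : 0 < ρ ^ m)]
      gcongr
    have hA := abs_le.1 (hone (R₁ + s) (by linarith) hR1)
    have hB := abs_le.1 (hone (R₁ - s) (by linarith) (by linarith))
    have hD0 : 0 ≤ D := by
      have := (abs_nonneg _).trans (hone R₁ (by linarith) (by linarith))
      by_contra hcon
      rw [not_le] at hcon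
      have : D * R₁ ^ m < 0 := mul_neg_of_neg_of_pos hcon (by positivity)
      linarith
    -- powers
    have hp1 : (R₁ + s) ^ m ≤ 2 ^ m * R₁ ^ m := by
      rw [← mul_pow]; gcongr; linarith
    have hp2 : (R₁ - s) ^ m ≤ R₁ ^ m := by
      gcongr
      · linarith
      · linarith
    have hp3 : (R₁ + s) ^ m - R₁ ^ m ≤ 2 ^ m * (m * s / R₁) * R₁ ^ m := by
      have h1 := pow_sub_le m (x := R₁) (y := R₁ + s) (by positivity) hR10.le (by linarith)
      rw [add_sub_cancel_left] at h1
      calc _ ≤ m * s / (R₁ + s) * (R₁ + s) ^ m := h1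
        _ ≤ m * s / R₁ * (2 ^ m * R₁ ^ m) := by
            gcongr; linarith
        _ = _ := by ring
    have hp4 : R₁ ^ m - (R₁ - s) ^ m ≤ 2 ^ m * (m * s / R₁) * R₁ ^ m := by
      have h1 := pow_sub_le m (x := R₁ - s) (y := R₁) hR10 (by linarith) (by linarith)
      rw [sub_sub_cancel] at h1
      have h2m : (1:ℝ) ≤ 2 ^ m := one_le_pow₀ (by norm_num)
      calc _ ≤ m * s / R₁ * R₁ ^ m := h1
        _ = 1 * (m * s / R₁) * R₁ ^ m := by ring
        _ ≤ _ := by gcongr
    have h2m : (1:ℝ) ≤ 2 ^ m := one_le_pow₀ (by norm_num)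
    have hRm : 0 < R₁ ^ m := by positivity
    have hδ' : (2 ^ m * (D + Q * om m * m * s / R₁)) * R₁ ^ m ≤ δ₁ * R₁ ^ m := by gcongr
    refine le_trans ?_ hδ'
    rw [abs_le]
    constructor
    · have h1 : Q * om m * (R₁ ^ m - (R₁ - s) ^ m) ≤ Q * om m * (2 ^ m * (m * s / R₁) * R₁ ^ m) :=
        mul_le_mul_of_nonneg_left hp4 hOm
      have h2 : D * (R₁ - s) ^ m ≤ D * (2 ^ m * R₁ ^ m) := by
        gcongr
        exact hp2.trans (le_mul_of_one_le_left hRm.le h2m)
      have e : 2 ^ m * (D + Q * om m * m * s / R₁) * R₁ ^ m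
          = D * (2 ^ m * R₁ ^ m) + Q * om m * (2 ^ m * (m * s / R₁) * R₁ ^ m) := by ring
      rw [e]
      nlinarith [hB.1, hlo]
    · have h1 : Q * om m * ((R₁ + s) ^ m - R₁ ^ m) ≤ Q * om m * (2 ^ m * (m * s / R₁) * R₁ ^ m) :=
        mul_le_mul_of_nonneg_left hp3 hOm
      have h2 : D * (R₁ + s) ^ m ≤ D * (2 ^ m * R₁ ^ m) := by gcongr
      have e : 2 ^ m * (D + Q * om m * m * s / R₁) * R₁ ^ m
          = D * (2 ^ m * R₁ ^ m) + Q * om m * (2 ^ m * (m * s / R₁) * R₁ ^ m) := by ring
      rw [e]
      nlinarith [hA.2, hup]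

end Vale.Agent.P214.TCH
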